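import Vale.Agent.P275AR.Defs

/-!
# P275, arrangements: the algebra of diagrams, local exactness
-/

open scoped Manifold ContDiff Topology Matrix
open Filter Set
open Vale.Agent.P272.K Vale.Agent.P281Z.Hg Vale.Agent.P275MC
open Vale.Agent.P281Z (HolM Mf)
open Vale.Agent.P280Z.Pu (smo_of)
open Vale.Agent.P275FM (Tri)

noncomputable section

namespace Vale.Agent.P275AR

namespace Fam

variable {A : Fam} (u : A.T) (s : A.σ)

theorem d_apply : A.d u s = dd _ _ (u s) := rfl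

theorem del_apply : A.del u s = P275AR.del _ _ (u s) := rfl

theorem gl_apply (c : A.σ → ℕ → ℂ) : A.gl c u s = P275AR.gl _ _ (c s) (u s) := rfl

theorem ty_apply (k : ℕ) : A.ty k u s = P275AR.ty _ _ k (u s) := rfl

theorem par_apply : A.par u s = pr _ _ (u s) := rfl

theorem dg_apply (q : ℕ) : A.dg q u s = pj _ _ q (u s) := by rw [pj_eq']; rfl

theorem cl_apply (p : ℕ) : A.cl p u s = if A.col s = p then u s else 0 := by
  rw [cl, gl_apply, gl_const]
  split_ifs <;> simp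

theorem mem_On {Q : Set A.σ} : u ∈ A.On Q ↔ ∀ s ∉ Q, u s = 0 := Iff.rfl

theorem gl_gl (c c' : A.σ → ℕ → ℂ) : A.gl c (A.gl c' u) = A.gl (fun s q => c s q * c' s q) u :=
  funext fun _ => P275AR.gl_gl _ _ _

theorem gl_congr {c c' : A.σ → ℕ → ℂ} (h : ∀ s, ∀ q ≤ A.n s + A.n s, c s q = c' s q) :
    A.gl c u = A.gl c' u := funext fun s => P275AR.gl_congr (h s) _

theorem gl_const (a : ℂ) : A.gl (fun _ _ => a) u = a • u := funext fun _ => P275AR.gl_const _ _

theorem gl_sum {ι : Type*} (t : Finset ι) (c : ι → A.σ → ℕ → ℂ) :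
    ∑ i ∈ t, A.gl (c i) u = A.gl (fun s q => ∑ i ∈ t, c i s q) u := funext fun s => by
  rw [Finset.sum_apply]
  exact P275AR.gl_sum t _ _

theorem gl_d (c : A.σ → ℕ → ℂ) : A.gl c (A.d u) = A.d (A.gl (fun s q => c s (q + 1)) u) :=
  funext fun _ => gl_dd _ _

theorem gl_del (c : A.σ → ℕ → ℂ) : A.gl c (A.del u) = A.del (A.gl (fun s q => c s (q + 1)) u) :=
  funext fun _ => P275AR.gl_del _ _

theorem gl_ty (c : A.σ → ℕ → ℂ) (k : ℕ) : A.gl c (A.ty k u) = A.ty k (A.gl c u) :=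
  funext fun _ => P275AR.gl_ty _ _ _

theorem gl_comm (c c' : A.σ → ℕ → ℂ) : A.gl c (A.gl c' u) = A.gl c' (A.gl c u) := by
  rw [gl_gl, gl_gl]
  simp only [mul_comm]

theorem gl_neg (c : A.σ → ℕ → ℂ) : A.gl (fun s q => -c s q) u = -A.gl c u := by
  rw [← neg_one_smul ℂ (A.gl c u), ← gl_const, gl_gl]
  simp only [neg_mul, one_mul]

theorem d_d : A.d (A.d u) = 0 := funext fun _ => dd_dd _

theorem par_par : A.par (A.par u) = u := by
  rw [par, gl_gl]
  simp only [← mul_pow, neg_mul_neg, one_mul, one_pow]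
  rw [gl_const, one_smul]

theorem par_d : A.par (A.d u) = -A.d (A.par u) := by
  rw [par, gl_d, ← map_neg, ← gl_neg]
  simp only [pow_succ, mul_neg, mul_one]

theorem par_del : A.par (A.del u) = -A.del (A.par u) := by
  rw [par, gl_del, ← map_neg, ← gl_neg]
  simp only [pow_succ, mul_neg, mul_one]

theorem d_cst (k : A.σ → ℂ) : A.d (A.cst k) = 0 := funext fun s => by
  rw [d_apply, cst, map_smul, dd_one, smul_zero, Pi.zero_apply]

theorem gl_cst (c : A.σ → ℕ → ℂ) (k : A.σ → ℂ) :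
    A.gl c (A.cst k) = A.cst fun s => c s 0 * k s := funext fun s => by
  rw [gl_apply, cst, map_smul, gl_one, cst, smul_smul, mul_comm]

theorem par_cst (k : A.σ → ℂ) : A.par (A.cst k) = A.cst k := by
  rw [par, gl_cst]
  simp only [pow_zero, one_mul]

theorem cst_add (k k' : A.σ → ℂ) : A.cst (k + k') = A.cst k + A.cst k' :=
  funext fun _ => add_smul _ _ _

theorem gl_On {Q : Set A.σ} (c : A.σ → ℕ → ℂ) {u : A.T} (h : u ∈ A.On Q) : A.gl c u ∈ A.On Q :=
  fun s hs => by rw [gl_apply, h s hs, map_zero]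

theorem top : ∃ N, ∀ s, A.n s + A.n s + A.col s < N :=
  ⟨(Finset.univ.sup fun s => A.n s + A.n s + A.col s) + 1, fun s => Nat.lt_succ_of_le
    (Finset.le_sup (f := fun s => A.n s + A.n s + A.col s) (Finset.mem_univ s))⟩

end Fam

namespace Sys

variable {C B A : Fam} {M : Sys B A} {c : Matrix B.σ A.σ ℂ} {t : B.σ} {s : A.σ}

theorem P_of (h : M.R t s) : M.P t s = pb (smo_of (M.hol t s h)) := dif_pos h

theorem P_not (h : ¬M.R t s) : M.P t s = 0 := dif_neg h

/-- a principle for the properties of the pull-backs -/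
theorem P_ind {p : (A.F s →ₗ[ℂ] B.F t) → Prop} (h0 : p 0)
    (h1 : ∀ h, p (pb (smo_of (M.hol t s h)))) : p (M.P t s) := by
  by_cases h : M.R t s
  · rw [P_of h]; exact h1 h
  · rw [P_not h]; exact h0

theorem act_apply (u : A.T) (t : B.σ) : M.act c u t = ∑ s, c t s • M.P t s (u s) := by
  rw [act, LinearMap.pi_apply, LinearMap.sum_apply]
  rfl

theorem act_op {F : ∀ s, Module.End ℂ (A.F s)} {G : ∀ t, Module.End ℂ (B.F t)}
    (h : ∀ t s h v, c t s ≠ 0 → pb (smo_of (M.hol t s h)) (F s v) =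
      G t (pb (smo_of (M.hol t s h)) v)) (u : A.T) :
    M.act c (LinearMap.piMap F u) = LinearMap.piMap G (M.act c u) := funext fun t => by
  rw [act_apply]
  change _ = G t (M.act c u t)
  rw [act_apply, map_sum]
  refine Finset.sum_congr rfl fun s _ => ?_
  by_cases h0 : c t s = 0
  · rw [h0, zero_smul, zero_smul, map_zero]
  · rw [map_smul]
    exact congrArg _ (P_ind (p := fun T => T (F s (u s)) = G t (T (u s))) (map_zero _).symm
      fun k => h t s k _ h0)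

theorem act_d (u : A.T) : M.act c (A.d u) = B.d (M.act c u) :=
  act_op (fun _ _ _ _ _ => pb_dd _ _) u

theorem act_del (u : A.T) : M.act c (A.del u) = B.del (M.act c u) :=
  act_op (fun t s h _ _ => pb_del (M.hol t s h) _) u

theorem act_ty (k : ℕ) (u : A.T) : M.act c (A.ty k u) = B.ty k (M.act c u) :=
  act_op (fun t s h _ _ => pb_ty (M.hol t s h) _ _) u

theorem act_gl {a : A.σ → ℕ → ℂ} {b : B.σ → ℕ → ℂ} (h : ∀ t s, c t s ≠ 0 → a s = b t) (u : A.T) :
    M.act c (A.gl a u) = B.gl b (M.act c u) :=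
  act_op (fun t s _ _ k => by rw [pb_gl, h t s k]) u

theorem act_par (u : A.T) : M.act c (A.par u) = B.par (M.act c u) := act_gl (fun _ _ _ => rfl) u

theorem act_dg (q : ℕ) (u : A.T) : M.act c (A.dg q u) = B.dg q (M.act c u) :=
  act_gl (fun _ _ _ => rfl) u

theorem act_add (c c' : Matrix B.σ A.σ ℂ) : M.act (c + c') = M.act c + M.act c' :=
  LinearMap.ext fun u => funext fun t => by
    simp only [LinearMap.add_apply, Pi.add_apply, act_apply, Matrix.add_apply, add_smul,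
      Finset.sum_add_distrib]

theorem act_smul (a : ℂ) (c : Matrix B.σ A.σ ℂ) : M.act (a • c) = a • M.act c :=
  LinearMap.ext fun u => funext fun t => by
    simp only [LinearMap.smul_apply, Pi.smul_apply, act_apply, Matrix.smul_apply, smul_eq_mul,
      mul_smul, Finset.smul_sum]

theorem act_zero : M.act 0 = 0 := by rw [← zero_smul ℂ 0, act_smul, zero_smul]

theorem act_neg (c : Matrix B.σ A.σ ℂ) : M.act (-c) = -M.act c := by
  rw [← neg_one_smul ℂ c, act_smul]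
  exact neg_one_smul ℂ (M.act c)

theorem act_cst (h : M.Sup c) (k : A.σ → ℂ) : M.act c (A.cst k) = B.cst (c *ᵥ k) :=
  funext fun t => by
    rw [act_apply, Fam.cst, Matrix.mulVec, dotProduct, Finset.sum_smul]
    refine Finset.sum_congr rfl fun s _ => ?_
    by_cases h0 : c t s = 0
    · rw [h0, zero_smul, zero_mul, zero_smul]
    · rw [P_of (h t s h0), Fam.cst, map_smul, pb_one, smul_smul]

theorem Cmp.P {M₁ : Sys C B} {M₂ : Sys B A} {M₃ : Sys C A} (h : M₁.Cmp M₂ M₃) {r : C.σ}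
    (h₁ : M₁.R r t) (h₂ : M₂.R t s) (v : A.F s) : M₁.P r t (M₂.P t s v) = M₃.P r s v := by
  obtain ⟨h₃, e⟩ := h r t s h₁ h₂
  rw [P_of h₁, P_of h₂, P_of h₃, ← pb_comp]
  exact pb_eq _ _ (fun x => (e x).symm) v

/-- **composition** -/
theorem Cmp.act {M₁ : Sys C B} {M₂ : Sys B A} {M₃ : Sys C A} (h : M₁.Cmp M₂ M₃)
    {c₁ : Matrix C.σ B.σ ℂ} {c₂ : Matrix B.σ A.σ ℂ} (h₁ : M₁.Sup c₁) (h₂ : M₂.Sup c₂) (u : A.T) :
    M₁.act c₁ (M₂.act c₂ u) = M₃.act (c₁ * c₂) u := funext fun r => by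
  simp only [act_apply, Matrix.mul_apply, map_sum, Finset.smul_sum, Finset.sum_smul]
  rw [Finset.sum_comm]
  refine Finset.sum_congr rfl fun s _ => Finset.sum_congr rfl fun t _ => ?_
  by_cases k₁ : c₁ r t = 0
  · rw [k₁, zero_smul, zero_mul, zero_smul]
  by_cases k₂ : c₂ t s = 0
  · rw [k₂, zero_smul, map_zero, smul_zero, mul_zero, zero_smul]
  rw [map_smul, h.P (h₁ r t k₁) (h₂ t s k₂), smul_smul]

theorem act_On {Q : Set A.σ} {Q' : Set B.σ} (h : ∀ t s, c t s ≠ 0 → s ∈ Q → t ∈ Q') {u : A.T}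
    (hu : u ∈ A.On Q) : M.act c u ∈ B.On Q' := fun t ht => by
  rw [act_apply]
  refine Finset.sum_eq_zero fun s _ => ?_
  by_cases h0 : c t s = 0
  · rw [h0, zero_smul]
  · rw [hu s fun k => ht (h t s h0 k), map_zero, smul_zero]

theorem act_Nb {u : A.T} {z : (B.S t).X}
    (h : ∀ s k, c t s ≠ 0 → u s ∈ Nb (M.f t s k z)) : M.act c u t ∈ Nb z := by
  rw [act_apply]
  refine Submodule.sum_mem _ fun s _ => ?_
  by_cases h0 : c t s = 0
  · rw [h0, zero_smul]; exact Submodule.zero_mem _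
  · exact Submodule.smul_mem _ _ (P_ind (p := fun T => T (u s) ∈ Nb z) (Submodule.zero_mem _)
      fun k => pb_Nb _ (h s k h0))

section ov
variable {Y'' Y' Y : Type} {p'' : ∀ r, (C.S r).X → Y''} {p' : ∀ t, (B.S t).X → Y'}
  {p : ∀ s, (A.S s).X → Y} {g' : Y'' → Y'} {g : Y' → Y}

theorem ov_Ov : (ov p' p g).Ov p' p g := fun _ _ h => h.choose_spec.2

theorem ov_P (hp : Function.Injective (p s)) {f : (B.S t).X → (A.S s).X}
    (hf : HolM (B.n t) (A.n s) f) (e : ∀ x, p s (f x) = g (p' t x)) :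
    (ov p' p g).P t s = pb (smo_of hf) := by
  have h : (ov p' p g).R t s := ⟨f, hf, e⟩
  rw [P_of h]
  exact LinearMap.ext (pb_eq _ _ fun x => hp ((ov_Ov t s h x).trans (e x).symm))

theorem ov_cmp (hp : ∀ s, Function.Injective (p s)) {M₁ : Sys C B} {M₂ : Sys B A}
    (h₁ : M₁.Ov p'' p' g') (h₂ : M₂.Ov p' p g) {k : Y'' → Y}
    (hk : ∀ r x, k (p'' r x) = g (g' (p'' r x))) : M₁.Cmp M₂ (ov p'' p k) := fun r t s a b => by
  have e : ∀ x, p s (M₂.f t s b (M₁.f r t a x)) = k (p'' r x) := fun x => by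
    rw [h₂, h₁, hk]
  have h : (ov p'' p k).R r s := ⟨_, ContMDiff.comp (M₂.hol t s b) (M₁.hol r t a), e⟩
  exact ⟨h, fun x => hp s ((ov_Ov r s h x).trans (e x).symm)⟩

end ov

end Sys

namespace Dia

variable {X X' : Dia}

theorem δ_apply (u : X.T) : X.δ u = X.M.act X.c (X.par u) := rfl

theorem D_apply (u : X.T) : X.D u = X.d u + X.δ u := rfl

theorem tri_D : X.tri.D = X.D := by
  rw [Tri.D, D]
  exact congrArg (· + X.δ) (add_sub_cancel _ _)

theorem d_δ (u : X.T) : X.d (X.δ u) = -X.δ (X.d u) := by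
  rw [δ_apply, δ_apply, Fam.par_d, map_neg, neg_neg, Sys.act_d]

theorem del_δ (u : X.T) : X.del (X.δ u) = -X.δ (X.del u) := by
  rw [δ_apply, δ_apply, Fam.par_del, map_neg, neg_neg, Sys.act_del]

theorem dg_δ (q : ℕ) (u : X.T) : X.dg q (X.δ u) = X.δ (X.dg q u) := by
  rw [δ_apply, δ_apply, ← Sys.act_dg]
  exact congrArg _ (Fam.gl_comm _ _ _)

theorem ty_δ (k : ℕ) (u : X.T) : X.ty k (X.δ u) = X.δ (X.ty k u) := by
  rw [δ_apply, δ_apply, ← Sys.act_ty]
  exact congrArg _ (Fam.gl_ty _ _ _).symm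

theorem OK.δ_δ (h : X.OK) (u : X.T) : X.δ (X.δ u) = 0 := by
  rw [δ_apply, δ_apply, ← Sys.act_par, Fam.par_par, h.cmp.act h.sup h.sup, h.cc, Sys.act_zero,
    LinearMap.zero_apply]

theorem OK.D_D (h : X.OK) (u : X.T) : X.D (X.D u) = 0 := by
  rw [D_apply, D_apply, map_add, map_add, Fam.d_d, h.δ_δ, d_δ]
  abel

theorem OK.D_cst (h : X.OK) (k : X.σ → ℂ) : X.D (X.cst k) = X.cst (X.c *ᵥ k) := by
  rw [D_apply, Fam.d_cst, zero_add, δ_apply, Fam.par_cst, Sys.act_cst h.sup]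

/-- functions of the column and of the form degree -/
theorem OK.gl_δ (h : X.OK) (a : ℕ → ℕ → ℂ) (u : X.T) :
    X.gl (fun s => a (X.col s)) (X.δ u) = X.δ (X.gl (fun s => a (X.col s + 1)) u) := by
  rw [δ_apply, δ_apply, ← Sys.act_gl (a := fun s => a (X.col s + 1))
    fun t s k => by rw [h.col t s k]]
  exact congrArg _ (Fam.gl_comm _ _ _)

/-- functions of the total degree -/
theorem OK.gl_D (h : X.OK) (a : ℕ → ℂ) (u : X.T) :
    X.gl (fun s q => a (q + X.col s)) (X.D u) = X.D (X.gl (fun s q => a (q + X.col s + 1)) u) := by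
  rw [D_apply, D_apply, map_add, Fam.gl_d, h.gl_δ fun p q => a (q + p)]
  simp only [add_right_comm _ 1, add_assoc]

theorem OK.π_D (h : X.OK) (m : ℕ) (u : X.T) : X.π (m + 1) (X.D u) = X.D (X.π m u) := by
  have := h.gl_D (fun j => if j < m + 1 then 1 else 0) u
  simp only [Nat.add_lt_add_iff_right] at this
  exact this

theorem OK.td_D (h : X.OK) (m : ℕ) (u : X.T) : X.td (m + 1) (X.D u) = X.D (X.td m u) := by
  have := h.gl_D (fun j => if j = m + 1 then 1 else 0) u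
  simp only [Nat.add_right_cancel_iff] at this
  exact this

theorem D_On {Q : Set X.σ} (hQ : ∀ t s, X.c t s ≠ 0 → s ∈ Q → t ∈ Q) {u : X.T}
    (hu : u ∈ X.On Q) : X.D u ∈ X.On Q :=
  Submodule.add_mem _ (fun s hs => by rw [Fam.d_apply, hu s hs, map_zero])
    (Sys.act_On hQ (Fam.gl_On _ hu))

section mor
variable {M : Sys X'.toFam X.toFam} {c : Matrix X'.σ X.σ ℂ}

theorem act_δ (h : X.OK) (h' : X'.OK) (h₁ : X'.M.Cmp M M) (h₂ : M.Cmp X.M M) (hc : M.Sup c) {ε : ℂ}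
    (e : X'.c * c = ε • (c * X.c)) (u : X.T) : X'.δ (M.act c u) = ε • M.act c (X.δ u) := by
  rw [δ_apply, δ_apply, ← Sys.act_par, h₁.act h'.sup hc, h₂.act hc h.sup, e, Sys.act_smul,
    LinearMap.smul_apply]

/-- chain maps -/
theorem act_D (h : X.OK) (h' : X'.OK) (h₁ : X'.M.Cmp M M) (h₂ : M.Cmp X.M M) (hc : M.Sup c)
    (e : X'.c * c = c * X.c) (u : X.T) : X'.D (M.act c u) = M.act c (X.D u) := by
  rw [D_apply, D_apply, map_add, Sys.act_d, act_δ h h' h₁ h₂ hc (ε := 1) (by rw [e, one_smul]),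
    one_smul]

/-- **morphisms** -/
theorem mor (h : X.OK) (h' : X'.OK) (h₁ : X'.M.Cmp M M) (h₂ : M.Cmp X.M M) (hc : M.Sup c)
    (e : X'.c * c = c * X.c) : Tri.Mor X.tri X'.tri 0 (M.act c) :=
  ⟨⟨1, one_ne_zero, fun a => by rw [one_smul]; exact (Sys.act_del a).symm, fun a => by
    change X'.d _ - X'.del _ = (1 : ℂ) • M.act c (X.d a - X.del a)
    rw [one_smul, map_sub, Sys.act_d, Sys.act_del],
    act_δ h h' h₁ h₂ hc (by rw [e, one_smul])⟩, fun q a => (Sys.act_dg q a).symm⟩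

/-- **morphisms which anticommute with the Cech differential** -/
theorem mor' (h : X.OK) (h' : X'.OK) (h₁ : X'.M.Cmp M M) (h₂ : M.Cmp X.M M) (hc : M.Sup c)
    (e : X'.c * c = -(c * X.c)) : Tri.Mor X.tri X'.tri 0 (M.act c ∘ₗ X.par) :=
  ⟨⟨-1, by simp, fun a => by
    change X'.del (M.act c (X.par a)) = (-1 : ℂ) • M.act c (X.par (X.del a))
    rw [Fam.par_del, map_neg, Sys.act_del, neg_one_smul, neg_neg], fun a => by
    change X'.d (M.act c (X.par a)) - X'.del (M.act c (X.par a)) =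
      (-1 : ℂ) • M.act c (X.par (X.d a - X.del a))
    rw [map_sub, map_sub, Fam.par_d, Fam.par_del, map_neg, map_neg, Sys.act_d, Sys.act_del,
      neg_one_smul]
    abel, fun a => by
    change X'.δ (M.act c (X.par a)) = (-1 : ℂ) • M.act c (X.par (X.δ a))
    rw [act_δ h h' h₁ h₂ hc (ε := -1) (by rw [e, neg_one_smul]), δ_apply, δ_apply,
      ← Sys.act_par]⟩, fun q a => by
    change X'.dg q (M.act c (X.par a)) = M.act c (X.par (X.dg q a))
    rw [← Sys.act_dg]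
    exact congrArg _ (Fam.gl_comm _ _ _)⟩

end mor

variable {N : ℕ} {Y : Mf N} {B : X.Ov Y} {u : X.T} {x : Y.X} {V : Set Y.X} {Q : Set X.σ}

theorem Ov.mem_G : u ∈ B.fine.G x ↔ ∀ s z, B.p s z = x → u s ∈ Nb z := by
  simp only [Ov.fine, Submodule.mem_iInf, Submodule.mem_comap]
  rfl

theorem Ov.mem_Kc : u ∈ B.Kc V ↔ ∀ s, u s ∈ Ac (X.n s) (B.p s ⁻¹' V) := by
  simp only [Ov.Kc, Submodule.mem_iInf, Submodule.mem_comap]
  rfl

theorem Ov.Kc_eq (V : Set Y.X) : B.Kc V = B.fine.Van Vᶜ := Submodule.ext fun u => by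
  simp only [Ov.mem_Kc, Fine.mem_Van, Ov.mem_G, Ac_iff]
  exact ⟨fun h x hx s z e => h s z (by rwa [mem_preimage, e]), fun h s z hz => h _ hz s z rfl⟩

theorem Ov.δ_G (h : u ∈ B.fine.G x) : X.δ u ∈ B.fine.G x := Ov.mem_G.2 fun t z e =>
  Sys.act_Nb fun s k _ => gl_Nb _ (Ov.mem_G.1 h s _ ((B.ov t s k z).trans e))

theorem Ov.ok (h : X.OK) (B : X.Ov Y) : B.fine.OK where
  dd := h.D_D
  π0 u := (Fam.gl_congr u (c' := fun _ _ => 0) fun _ _ _ => if_neg (Nat.not_lt_zero _)).trans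
    ((Fam.gl_const u 0).trans (zero_smul _ _))
  πd := h.π_D
  ππ m u := (Fam.gl_gl u _ _).trans (Fam.gl_congr u fun _ _ _ => by split_ifs <;> simp)
  top u := X.top.imp fun N hN => (Fam.gl_congr u (c' := fun _ _ => 1) fun s q hq =>
    if_pos (by have := hN s; omega)).trans ((Fam.gl_const u 1).trans (one_smul _ _))
  opn u x hx := by
    simp only [Ov.mem_G] at hx ⊢
    refine eventually_all.2 fun s => ?_
    have hc := ((isOpen_Nb (u s)).isClosed_compl.isCompact.image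
      (ContMDiff.continuous (B.hol s))).isClosed.isOpen_compl
    refine mem_of_superset (hc.mem_nhds ?_) fun y hy z e => by_contra fun k => hy ⟨z, k, e⟩
    rintro ⟨z, k, e⟩
    exact k (hx s z e)
  sep u hu := funext fun s => eq_zero_of_ZP fun z => Nb_ZP (Ov.mem_G.1 (hu _) s z rfl)
  dG x u hu := Submodule.add_mem _ (Ov.mem_G.2 fun s z e => dd_Nb (Ov.mem_G.1 hu s z e))
    (Ov.δ_G hu)
  πG m x u hu := Ov.mem_G.2 fun s z e => gl_Nb _ (Ov.mem_G.1 hu s z e)
  RG := by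
    rintro _ ⟨ρ, hρ, rfl⟩ x u hu
    exact Ov.mem_G.2 fun s z e => mu_Nb _ (Ov.mem_G.1 hu s z e)
  cut K L hK hL hd := by
    obtain ⟨ρ, hρ, h1, h0⟩ := ex_cut (d := N) hK hL hd
    have hc := fun s z => (ContMDiff.continuous (B.hol s)).continuousAt (x := z)
    exact ⟨_, ⟨ρ, hρ, rfl⟩, fun u =>
      ⟨fun x hx => Ov.mem_G.2 fun s z e => mu_Nb_one _ ((hc s z).eventually (h1 _ (e ▸ hx))) _,
        fun x hx => Ov.mem_G.2 fun s z e =>
          mu_Nb_zero _ ((hc s z).eventually (h0 _ (e ▸ hx))) _⟩⟩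

theorem Ov.sub_On (B : X.Ov Y) (hQ : ∀ t s, X.c t s ≠ 0 → s ∈ Q → t ∈ Q) : B.fine.Sub (X.On Q) :=
  ⟨fun _ => D_On hQ, fun _ _ => Fam.gl_On _, by
    rintro _ ⟨ρ, hρ, rfl⟩ u hu s hs
    exact (congrArg (P275MC.mu _) (hu s hs)).trans (map_zero _)⟩

theorem Ov.step (h : X.OK) (hQ : ∀ t s, X.c t s ≠ 0 → s ∈ Q → t ∈ Q)
    (hi : ∀ s ∈ Q, ∀ z z', B.p s z = x → B.p s z' = x → z = z') (hu : u ∈ X.On Q)
    (hd : X.D u ∈ B.fine.G x) (p : ℕ) : ∃ w ∈ X.On Q, ∃ k : X.σ → ℂ, (∀ s ∉ Q, k s = 0) ∧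
      ∀ s, X.col s < p → ∀ z, B.p s z = x → (u - X.D w - X.cst k) s ∈ Nb z := by
  induction p with
  | zero => exact ⟨0, Submodule.zero_mem _, 0, fun _ _ => rfl, fun _ h => absurd h (by simp)⟩
  | succ p ih =>
    obtain ⟨w, hw, k, hk, h1⟩ := ih
    set r := u - X.D w - X.cst k with hr
    have hrQ : r ∈ X.On Q := Submodule.sub_mem _ (Submodule.sub_mem _ hu (D_On hQ hw))
      fun s hs => by rw [Fam.cst, hk s hs, zero_smul]
    have key : ∀ s, ∃ (v : X.F s) (a : ℂ), (¬(s ∈ Q ∧ X.col s = p) → v = 0 ∧ a = 0) ∧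
        (X.col s = p → ∀ z, B.p s z = x → r s - dd _ _ v - a • one _ _ ∈ Nb z) := fun s => by
      by_cases hs : s ∈ Q ∧ X.col s = p ∧ ∃ z, B.p s z = x
      · obtain ⟨hs, hp, z, hz⟩ := hs
        have e : X.D r = X.D u - X.cst (X.c *ᵥ k) := by
          rw [hr, map_sub, map_sub, h.D_D, h.D_cst, sub_zero]
        have a1 : X.δ r s ∈ Nb z := Sys.act_Nb fun s' k' h0 => gl_Nb _
          (h1 s' (by have := h.col s s' h0; omega) _ ((B.ov s s' k' z).trans hz))
        have a2 : dd _ _ (r s) + (X.c *ᵥ k) s • one _ _ ∈ Nb z := by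
          have e' : dd _ _ (r s) + X.δ r s = X.D u s - (X.c *ᵥ k) s • one _ _ := congrFun e s
          rw [eq_sub_iff_add_eq.2 e', show X.D u s - (X.c *ᵥ k) s • one _ _ - X.δ r s +
            (X.c *ᵥ k) s • one _ _ = X.D u s - X.δ r s by abel]
          exact Submodule.sub_mem _ (Ov.mem_G.1 hd s z hz) a1
        have a3 := gl_Nb (fun q => if q = 0 then 0 else 1) a2
        rw [map_add, map_smul, gl_one, if_pos rfl, zero_smul, smul_zero, add_zero, gl_dd] at a3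
        simp only [Nat.succ_ne_zero, if_false, gl_const, one_smul] at a3
        obtain ⟨v, a, a4⟩ := poincare a3
        refine ⟨v, a, fun k => absurd ⟨hs, hp⟩ k, fun _ z' hz' => ?_⟩
        rw [hi s hs z' z hz' hz, show r s - dd _ _ v - a • one _ _ =
          -(dd _ _ v - r s + a • one _ _) by abel]
        exact Submodule.neg_mem _ a4
      · refine ⟨0, 0, fun _ => ⟨rfl, rfl⟩, fun hp z hz => ?_⟩
        rw [hrQ s fun k => hs ⟨k, hp, z, hz⟩, map_zero, zero_smul, sub_zero, sub_zero]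
        exact Submodule.zero_mem _
    choose v a h2 h3 using key
    refine ⟨w + v, Submodule.add_mem _ hw fun s hs => (h2 s fun k => hs k.1).1, k + a,
      fun s hs => by rw [Pi.add_apply, hk s hs, (h2 s fun k => hs k.1).2, add_zero],
      fun s hs z hz => ?_⟩
    have e0 : X.δ v s = 0 := Sys.act_On (Q := {s | X.col s = p}) (Q' := {s | X.col s = p + 1})
      (fun t s k hs => (h.col t s k).trans (congrArg (· + 1) hs))
      (Fam.gl_On _ fun s hs => (h2 s fun k => hs k.2).1) s hs.ne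
    have e1 : (u - X.D (w + v) - X.cst (k + a)) s = r s - dd _ _ (v s) - a s • one _ _ := by
      rw [map_add, Fam.cst_add, show u - (X.D w + X.D v) - (X.cst k + X.cst a) =
        r - X.D v - X.cst a by rw [hr]; abel, Pi.sub_apply, Pi.sub_apply, D_apply, Pi.add_apply, e0,
        add_zero]
      rfl
    rw [e1]
    rcases Nat.lt_succ_iff_lt_or_eq.1 hs with hs | hs
    · obtain ⟨e2, e3⟩ := h2 s fun k => hs.ne k.2
      rw [e2, e3, map_zero, zero_smul, sub_zero, sub_zero]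
      exact h1 s hs z hz
    · exact h3 s hs z hz

/-- **local exactness** -/
theorem Ov.ex (h : X.OK) (hQ : ∀ t s, X.c t s ≠ 0 → s ∈ Q → t ∈ Q) (ha : B.Acy Q x) :
    B.fine.Ex (X.On Q) x := fun u hu hd => by
  obtain ⟨p, hp⟩ := X.top
  obtain ⟨w, hw, k, hk, h1⟩ := Ov.step h hQ ha.inj hu hd p
  have h2 : u - X.D w - X.cst k ∈ B.fine.G x :=
    Ov.mem_G.2 fun s => h1 s (by have := hp s; omega)
  have h3 : X.cst (X.c *ᵥ k) ∈ B.fine.G x := by
    have := Submodule.sub_mem _ hd ((B.ok h).dG x _ h2)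
    change X.D u - X.D _ ∈ _ at this
    rwa [map_sub, map_sub, h.D_D, h.D_cst, sub_zero, sub_sub_cancel] at this
  obtain ⟨k', hk', h4⟩ := ha.ex k hk fun t ⟨z, hz⟩ => one_Nb (Ov.mem_G.1 h3 t z hz)
  refine ⟨w + X.cst k', Submodule.add_mem _ hw fun s hs => by rw [Fam.cst, hk' s hs, zero_smul], ?_⟩
  change X.D _ - u ∈ _
  rw [map_add, h.D_cst, show X.D w + X.cst (X.c *ᵥ k') - u =
    X.cst (X.c *ᵥ k') - X.cst k - (u - X.D w - X.cst k) by abel]
  refine Submodule.sub_mem _ (Ov.mem_G.2 fun s z hz => ?_) h2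
  rw [Pi.sub_apply, Fam.cst, Fam.cst, h4 s ⟨z, hz⟩, sub_self]
  exact Submodule.zero_mem _

end Dia

end Vale.Agent.P275AR
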