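import Vale.Agent.P275MC.Hol
import Vale.Agent.P275FM.Coh

/-!
# P275, arrangements: cohomology with compact supports of an open subset of a manifold
-/

open scoped Manifold ContDiff Topology
open Set Function
open Vale.Agent.P272.K Vale.Agent.P281Z.Hg Vale.Agent.P275MC Vale.Agent.P275FM

set_option linter.unusedSectionVars false

noncomputable section

namespace Vale.Agent.P275AR

section sub

variable {T T' : Type*} [AddCommGroup T] [Module ℂ T] [AddCommGroup T'] [Module ℂ T']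
  {D : Module.End ℂ T} {D' : Module.End ℂ T'} {P : Submodule ℂ T} {P' : Submodule ℂ T'}
  {hP : ∀ u ∈ P, D u ∈ P} {hP' : ∀ u ∈ P', D' u ∈ P'} {f : T →ₗ[ℂ] T'} {hf : ∀ u ∈ P, f u ∈ P'}

theorem ch_res (h : ∀ u ∈ P, D' (f u) = f (D u)) :
    Ch (D.restrict hP) (D'.restrict hP') (f.restrict hf) :=
  Ch.of_comm fun a => Subtype.ext (h a a.2)

theorem ch_dom (h : ∀ u ∈ P, D' (f u) = f (D u)) : Ch (D.restrict hP) D' (f.domRestrict P) :=
  Ch.of_comm fun a => h a a.2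

theorem surj_res (c : Ch (D.restrict hP) (D'.restrict hP') (f.restrict hf)) :
    Surjective (Coh.map _ c) ↔
      ∀ z' ∈ P', D' z' = 0 → ∃ z ∈ P, ∃ y ∈ P', D z = 0 ∧ f z - z' = D' y := by
  rw [Coh.map_surj]
  refine ⟨fun h z' k e => ?_, fun h z' e => ?_⟩
  · obtain ⟨z, y, h1, h2⟩ := h ⟨z', k⟩ (Subtype.ext e)
    exact ⟨z, z.2, y, y.2, congrArg Subtype.val h1, congrArg Subtype.val h2⟩
  · obtain ⟨z, k, y, k', h1, h2⟩ := h z' z'.2 (congrArg Subtype.val e)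
    exact ⟨⟨z, k⟩, ⟨y, k'⟩, Subtype.ext h1, Subtype.ext h2⟩

theorem inj_res (c : Ch (D.restrict hP) (D'.restrict hP') (f.restrict hf)) :
    Injective (Coh.map _ c) ↔ ∀ z ∈ P, ∀ y' ∈ P', D z = 0 → f z = D' y' → ∃ y ∈ P, z = D y := by
  rw [Coh.map_inj]
  refine ⟨fun h z k y' k' e e' => ?_, fun h z y' e e' => ?_⟩
  · obtain ⟨y, h1⟩ := h ⟨z, k⟩ ⟨y', k'⟩ (Subtype.ext e) (Subtype.ext e')
    exact ⟨y, y.2, congrArg Subtype.val h1⟩
  · obtain ⟨y, k, h1⟩ := h z z.2 y' y'.2 (congrArg Subtype.val e) (congrArg Subtype.val e')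
    exact ⟨⟨y, k⟩, Subtype.ext h1⟩

theorem surj_dom (c : Ch (D.restrict hP) D' (f.domRestrict P)) :
    Surjective (Coh.map _ c) ↔ ∀ z', D' z' = 0 → ∃ z ∈ P, ∃ y, D z = 0 ∧ f z - z' = D' y := by
  rw [Coh.map_surj]
  refine ⟨fun h z' e => ?_, fun h z' e => ?_⟩
  · obtain ⟨z, y, h1, h2⟩ := h z' e
    exact ⟨z, z.2, y, congrArg Subtype.val h1, h2⟩
  · obtain ⟨z, k, y, h1, h2⟩ := h z' e
    exact ⟨⟨z, k⟩, y, Subtype.ext h1, h2⟩

theorem inj_dom (c : Ch (D.restrict hP) D' (f.domRestrict P)) :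
    Injective (Coh.map _ c) ↔ ∀ z ∈ P, ∀ y', D z = 0 → f z = D' y' → ∃ y ∈ P, z = D y := by
  rw [Coh.map_inj]
  refine ⟨fun h z k y' e e' => ?_, fun h z y' e e' => ?_⟩
  · obtain ⟨y, h1⟩ := h ⟨z, k⟩ y' (Subtype.ext e) e'
    exact ⟨y, y.2, congrArg Subtype.val h1⟩
  · obtain ⟨y, k, h1⟩ := h z z.2 y' (congrArg Subtype.val e) e'
    exact ⟨⟨y, k⟩, Subtype.ext h1⟩

end sub

variable {d d' d'' : ℕ} {M M' M'' : Type} [TopologicalSpace M] [ChartedSpace (Cm d) M] [T2Space M]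
  [IsManifold 𝓘(ℂ, Cm d) ω M] [TopologicalSpace M'] [ChartedSpace (Cm d') M'] [T2Space M']
  [IsManifold 𝓘(ℂ, Cm d') ω M'] [TopologicalSpace M''] [ChartedSpace (Cm d'') M''] [T2Space M'']
  [IsManifold 𝓘(ℂ, Cm d'') ω M''] {V : Set M} {V' : Set M'} {V'' : Set M''}

variable (d V) in
/-- the exterior derivative on the forms with compact support in `V` -/
def dc : Module.End ℂ (Ac d V) := (dd d M).restrict fun _ => dd_Ac

variable (d V) in
/-- the cohomology with compact supports in `V` -/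
abbrev Hc : Type := Coh (dc d V)

theorem dc_val (u : Ac d V) : (dc d V u : SF d M) = dd d M u := rfl

theorem dc_dc (u : Ac d V) : dc d V (dc d V u) = 0 := Subtype.ext (dd_dd _)

variable (V V') in
/-- operators which act on the cohomology with compact supports -/
structure Act (T : SF d M →ₗ[ℂ] SF d' M') : Prop where
  mem : ∀ u ∈ Ac d V, T u ∈ Ac d' V'
  comm : ∀ u ∈ Ac d V, dd d' M' (T u) = T (dd d M u)

namespace Act

variable {T : SF d M →ₗ[ℂ] SF d' M'} {S : SF d' M' →ₗ[ℂ] SF d'' M''}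

theorem ch (h : Act V V' T) : Ch (dc d V) (dc d' V') (T.restrict h.mem) := ch_res h.comm

/-- the induced map -/
def map (h : Act V V' T) : Hc d V →ₗ[ℂ] Hc d' V' := Coh.map _ h.ch

theorem map_mk (h : Act V V' T) (z : Ac d V) (hz : dc d V z = 0) :
    h.map (Coh.mk z hz) = Coh.mk ⟨T z, h.mem z z.2⟩ (h.ch.cyc z hz) := rfl

theorem comp (k : Act V' V'' S) (h : Act V V' T) : Act V V'' (S ∘ₗ T) :=
  ⟨fun u hu => k.mem _ (h.mem u hu), fun u hu =>
    (k.comm _ (h.mem u hu)).trans (congrArg S (h.comm u hu))⟩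

theorem map_comp (k : Act V' V'' S) (h : Act V V' T) (x : Hc d V) :
    (k.comp h).map x = k.map (h.map x) := by
  obtain ⟨z, hz, rfl⟩ := Coh.ind x
  rfl

theorem map_congr {T' : SF d M →ₗ[ℂ] SF d' M'} (h : Act V V' T) (h' : Act V V' T')
    (e : ∀ u ∈ Ac d V, T u = T' u) : h.map = h'.map := LinearMap.ext fun x => by
  obtain ⟨z, hz, rfl⟩ := Coh.ind x
  exact Coh.mk_congr (Subtype.ext (e z z.2)) _

theorem map_id {T : SF d M →ₗ[ℂ] SF d M} (h : Act V V T) (e : ∀ u ∈ Ac d V, T u = u)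
    (x : Hc d V) : h.map x = x := by
  obtain ⟨z, hz, rfl⟩ := Coh.ind x
  exact Coh.mk_congr (Subtype.ext (e z z.2)) _

/-- extension by zero to a larger set -/
theorem incl {W : Set M} (h : V ⊆ W) : Act V W (LinearMap.id : SF d M →ₗ[ℂ] SF d M) :=
  ⟨fun _ hu => Ac_mono h hu, fun _ _ => rfl⟩

/-- pull-back by a map which is proper over `V'` -/
theorem pb {f : M → M'} (hf : Smo d d' f) (hp : ∀ K, IsCompact K → K ⊆ V' → IsCompact (f ⁻¹' K))
    (h : f ⁻¹' V' ⊆ V) : Act V' V (pb hf) :=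
  ⟨fun _ hu => Ac_mono h (pb_Ac hf hp hu), fun u _ => (pb_dd hf u).symm⟩

/-- inverse operators induce inverse maps -/
theorem bij {T' : SF d' M' →ₗ[ℂ] SF d M} (h : Act V V' T) (h' : Act V' V T')
    (e : ∀ u ∈ Ac d V, T' (T u) = u) (e' : ∀ u ∈ Ac d' V', T (T' u) = u) : Bijective h.map :=
  bijective_iff_has_inverse.2 ⟨h'.map, fun x => by rw [← map_comp, map_id _ e],
    fun x => by rw [← map_comp, map_id _ e']⟩

end Act

variable {N : Type} [TopologicalSpace N] [ChartedSpace (Cm d) N] [T2Space N]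
  [IsManifold 𝓘(ℂ, Cm d) ω N] {i : M → N} {W : Set N}

/-- extension by zero along an open embedding -/
theorem Act.ext (h : OE d i) (k : i '' V ⊆ W) : Act V W h.ext :=
  ⟨fun _ hu => Ac_mono k (h.ext_Ac hu), fun _ hu => (h.ext_dd hu).symm⟩

/-- restriction along an open embedding -/
theorem Act.res (h : OE d i) (k : W ⊆ range i) (k' : i ⁻¹' W ⊆ V) : Act W V (P275MC.pb h.smo) :=
  ⟨fun _ hu => Ac_mono k' (h.pb_Ac k hu), fun u _ => (pb_dd h.smo u).symm⟩

theorem Act.ext_bij (h : OE d i) (k : i '' V = W) : Bijective (Act.ext h k.subset).map :=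
  Act.bij _ (Act.res h (k ▸ image_subset_range i V) (k ▸ (h.inj.preimage_image V).subset))
    (fun _ hu => h.pb_ext hu) fun _ ⟨_, _, h2, h3⟩ =>
      h.ext_pb (Sp_mono (h2.trans (k ▸ image_subset_range i V)) h3)

end Vale.Agent.P275AR
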