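import Mathlib.Topology.Separation.Regular
import Mathlib.Algebra.Module.LinearMap.End
import Mathlib.Algebra.Module.Submodule.Lattice
import Mathlib.Data.Complex.Basic
import Mathlib.Tactic.Abel

/-!
# P275, fine complexes over a compact space: locally exact implies exact
-/

open Set Filter Topology

noncomputable section

namespace Vale.Agent.P275AR

/-- a module with a differential, projectors `π m` on the degrees `< m`, submodules `G x` of the
elements which vanish near `x`, and a set `R` of cut-off operators -/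
structure Fine (X S : Type) [AddCommGroup S] [Module ℂ S] where
  d : Module.End ℂ S
  π : ℕ → Module.End ℂ S
  G : X → Submodule ℂ S
  R : Set (Module.End ℂ S)

namespace Fine

variable {X S : Type} [AddCommGroup S] [Module ℂ S] (F : Fine X S)

/-- the elements which vanish near `K` -/
def Van (K : Set X) : Submodule ℂ S := ⨅ x ∈ K, F.G x

variable {F} in
theorem mem_Van {K : Set X} {u : S} : u ∈ F.Van K ↔ ∀ x ∈ K, u ∈ F.G x := by
  simp only [Van, Submodule.mem_iInf]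

theorem Van_union (K L : Set X) : F.Van (K ∪ L) = F.Van K ⊓ F.Van L := by
  ext u
  simp only [Submodule.mem_inf, mem_Van, mem_union]
  exact ⟨fun h => ⟨fun x hx => h x (Or.inl hx), fun x hx => h x (Or.inr hx)⟩,
    fun h x hx => hx.elim (h.1 x) (h.2 x)⟩

variable {F} in
theorem Van_mono {K L : Set X} (h : K ⊆ L) : F.Van L ≤ F.Van K := fun _ hu =>
  mem_Van.2 fun x hx => mem_Van.1 hu x (h hx)

/-- the axioms -/
structure OK [TopologicalSpace X] : Prop where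
  dd : ∀ u, F.d (F.d u) = 0
  π0 : ∀ u, F.π 0 u = 0
  πd : ∀ m u, F.π (m + 1) (F.d u) = F.d (F.π m u)
  ππ : ∀ m u, F.π m (F.π m u) = F.π m u
  top : ∀ u, ∃ N, F.π N u = u
  opn : ∀ u x, u ∈ F.G x → ∀ᶠ y in 𝓝 x, u ∈ F.G y
  sep : ∀ u, (∀ x, u ∈ F.G x) → u = 0
  dG : ∀ x u, u ∈ F.G x → F.d u ∈ F.G x
  πG : ∀ m x u, u ∈ F.G x → F.π m u ∈ F.G x
  RG : ∀ ρ ∈ F.R, ∀ x u, u ∈ F.G x → ρ u ∈ F.G x
  cut : ∀ K L : Set X, IsClosed K → IsClosed L → Disjoint K L → ∃ ρ ∈ F.R,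
    ∀ u, (∀ x ∈ K, ρ u - u ∈ F.G x) ∧ ∀ x ∈ L, ρ u ∈ F.G x

/-- subcomplexes which are stable under the cut-offs -/
structure Sub (P : Submodule ℂ S) : Prop where
  d : ∀ u ∈ P, F.d u ∈ P
  π : ∀ m, ∀ u ∈ P, F.π m u ∈ P
  R : ∀ ρ ∈ F.R, ∀ u ∈ P, ρ u ∈ P

/-- `P` is exact at the point `x` -/
def Ex (P : Submodule ℂ S) (x : X) : Prop :=
  ∀ u ∈ P, F.d u ∈ F.G x → ∃ c ∈ P, F.d c - u ∈ F.G x

variable {F} {P Q : Submodule ℂ S}

theorem Sub.inf (h : F.Sub P) (k : F.Sub Q) : F.Sub (P ⊓ Q) :=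
  ⟨fun u hu => ⟨h.d u hu.1, k.d u hu.2⟩, fun m u hu => ⟨h.π m u hu.1, k.π m u hu.2⟩,
    fun ρ hρ u hu => ⟨h.R ρ hρ u hu.1, k.R ρ hρ u hu.2⟩⟩

theorem sub_top : F.Sub ⊤ := ⟨fun _ _ => trivial, fun _ _ _ => trivial, fun _ _ _ _ => trivial⟩

variable [TopologicalSpace X]

theorem OK.sub_Van (h : F.OK) (K : Set X) : F.Sub (F.Van K) :=
  ⟨fun u hu => mem_Van.2 fun x hx => h.dG x u (mem_Van.1 hu x hx),
    fun m u hu => mem_Van.2 fun x hx => h.πG m x u (mem_Van.1 hu x hx),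
    fun ρ hρ u hu => mem_Van.2 fun x hx => h.RG ρ hρ x u (mem_Van.1 hu x hx)⟩

theorem OK.isOpen (h : F.OK) (u : S) : IsOpen {x | u ∈ F.G x} :=
  isOpen_iff_mem_nhds.2 fun x hx => h.opn u x hx

/-- gluing two elements which agree near the intersection of two closed sets -/
theorem OK.glue (h : F.OK) (hP : F.Sub P) {K L : Set X} (hK : IsClosed K) (hL : IsClosed L)
    {a b : S} (ha : a ∈ P) (hb : b ∈ P) (hab : ∀ x ∈ K ∩ L, a - b ∈ F.G x) :
    ∃ c ∈ P, (∀ x ∈ K, c - a ∈ F.G x) ∧ ∀ x ∈ L, c - b ∈ F.G x := by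
  have hO := h.isOpen (a - b)
  obtain ⟨ρ, hρ, h1⟩ := h.cut (K \ {x | a - b ∈ F.G x}) (L \ {x | a - b ∈ F.G x})
    (hK.sdiff hO) (hL.sdiff hO)
    (Set.disjoint_left.2 fun x h1 h2 => h1.2 (hab x ⟨h1.1, h2.1⟩))
  refine ⟨b + ρ (a - b), P.add_mem hb (hP.R ρ hρ _ (P.sub_mem ha hb)), fun x hx => ?_,
    fun x hx => ?_⟩
  · rw [show b + ρ (a - b) - a = ρ (a - b) - (a - b) by abel]
    by_cases h2 : a - b ∈ F.G x
    · exact (F.G x).sub_mem (h.RG ρ hρ x _ h2) h2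
    · exact (h1 _).1 x ⟨hx, h2⟩
  · rw [add_sub_cancel_left]
    by_cases h2 : a - b ∈ F.G x
    · exact h.RG ρ hρ x _ h2
    · exact (h1 _).2 x ⟨hx, h2⟩

variable [CompactSpace X] [T2Space X]

theorem OK.core' (h : F.OK) (hP : F.Sub P) (m : ℕ) : ∀ K : Set X, IsClosed K →
    (∀ x ∈ K, F.Ex P x) → ∀ u ∈ P, F.π m u = u → (∀ x ∈ K, F.d u ∈ F.G x) →
    ∃ c ∈ P, ∀ x ∈ K, F.d c - u ∈ F.G x := by
  induction m with
  | zero =>
    intro K _ _ u _ h0 _
    refine ⟨0, P.zero_mem, fun x _ => ?_⟩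
    rw [← h0, h.π0, map_zero, sub_zero]
    exact (F.G x).zero_mem
  | succ m ih =>
    intro K hK hE u hu h0 hd
    have key : ∃ s, K ⊆ s ∧ s ⊆ K ∧ IsClosed s ∧ ∃ c ∈ P, ∀ x ∈ s, F.d c - u ∈ F.G x := by
      refine hK.isCompact.induction_on
        (p := fun t => ∃ s, t ⊆ s ∧ s ⊆ K ∧ IsClosed s ∧ ∃ c ∈ P, ∀ x ∈ s, F.d c - u ∈ F.G x)
        ⟨∅, subset_rfl, empty_subset _, isClosed_empty, 0, P.zero_mem, fun _ hx => hx.elim⟩
        (fun s t hst ⟨r, h1, h2⟩ => ⟨r, hst.trans h1, h2⟩) ?_ fun x hx => ?_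
      · rintro s t ⟨s', a1, a2, a3, a, ha, a4⟩ ⟨t', b1, b2, b3, b, hb, b4⟩
        have pr : ∀ c y, F.d c - u ∈ F.G y → F.d (F.π m c) - u ∈ F.G y := fun c y hc => by
          have := h.πG (m + 1) y _ hc
          rwa [map_sub, h.πd, h0] at this
        obtain ⟨e, he, e1⟩ := ih (s' ∩ t') (a3.inter b3) (fun x hx => hE x (a2 hx.1))
          (F.π m (a - b)) (hP.π m _ (P.sub_mem ha hb)) (h.ππ m _) fun x hx => by
            have := (F.G x).sub_mem (pr a x (a4 x hx.1)) (pr b x (b4 x hx.2))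
            rwa [sub_sub_sub_cancel_right, ← map_sub, ← map_sub] at this
        obtain ⟨c, hc, c1, c2⟩ := h.glue hP a3 b3 (hP.π m a ha)
          (P.add_mem (hP.π m b hb) (hP.d e he)) fun x hx => by
            have := (F.G x).neg_mem (e1 x hx)
            rwa [map_sub (F.π m), show -(F.d e - (F.π m a - F.π m b)) =
              F.π m a - (F.π m b + F.d e) by abel] at this
        refine ⟨s' ∪ t', union_subset_union a1 b1, union_subset a2 b2, a3.union b3, c, hc,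
          fun x hx => hx.elim (fun hx => ?_) fun hx => ?_⟩
        · have := (F.G x).add_mem (h.dG x _ (c1 x hx)) (pr a x (a4 x hx))
          rwa [map_sub, sub_add_sub_cancel] at this
        · have := (F.G x).add_mem (h.dG x _ (c2 x hx)) (pr b x (b4 x hx))
          rwa [map_sub, map_add, h.dd, add_zero, sub_add_sub_cancel] at this
      · obtain ⟨c, hc, c1⟩ := hE x hx u hu (hd x hx)
        obtain ⟨W, w1, w2, w3⟩ := exists_mem_nhds_isClosed_subset (h.opn _ x c1)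
        exact ⟨K ∩ W, inter_mem_nhdsWithin K w1, K ∩ W, subset_rfl, inter_subset_left,
          hK.inter w2, c, hc, fun y hy => w3 hy.2⟩
    obtain ⟨s, h1, -, -, c, hc, h2⟩ := key
    exact ⟨c, hc, fun x hx => h2 x (h1 hx)⟩

/-- **locally exact implies exact near a closed set** -/
theorem OK.core (h : F.OK) (hP : F.Sub P) {K : Set X} (hK : IsClosed K) (hE : ∀ x ∈ K, F.Ex P x)
    {u : S} (hu : u ∈ P) (hd : ∀ x ∈ K, F.d u ∈ F.G x) :
    ∃ c ∈ P, ∀ x ∈ K, F.d c - u ∈ F.G x :=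
  (h.top u).elim fun N hN => h.core' hP N K hK hE u hu hN hd

omit [CompactSpace X] in
/-- exactness at a point after imposing vanishing near a closed set -/
theorem OK.ex_Van (h : F.OK) (hP : F.Sub P) {B : Set X} (hB : IsClosed B) {x : X}
    (hx : x ∉ B → F.Ex P x) : F.Ex (P ⊓ F.Van B) x := fun u hu hd => by
  by_cases hb : x ∈ B
  · refine ⟨0, Submodule.zero_mem _, ?_⟩
    rw [map_zero, zero_sub]
    exact (F.G x).neg_mem (mem_Van.1 hu.2 x hb)
  · obtain ⟨c, hc, c1⟩ := hx hb u hu.1 hd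
    obtain ⟨ρ, hρ, h1⟩ := h.cut {x} B isClosed_singleton hB (disjoint_singleton_left.2 hb)
    refine ⟨ρ c, ⟨hP.R ρ hρ c hc, mem_Van.2 (h1 c).2⟩, ?_⟩
    have := (F.G x).add_mem (h.dG x _ ((h1 c).1 x rfl)) c1
    rwa [map_sub, sub_add_sub_cancel] at this

/-- a locally exact complex is exact -/
theorem OK.exact (h : F.OK) (hP : F.Sub P) (hE : ∀ x, F.Ex P x) {u : S} (hu : u ∈ P)
    (hd : F.d u = 0) : ∃ c ∈ P, F.d c = u := by
  obtain ⟨c, hc, h1⟩ := h.core hP isClosed_univ (fun x _ => hE x) hu fun x _ => by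
    rw [hd]; exact (F.G x).zero_mem
  exact ⟨c, hc, sub_eq_zero.1 (h.sep _ fun x => h1 x trivial)⟩

/-- every cycle is homologous to a cycle which vanishes near `K` -/
theorem OK.qsurj (h : F.OK) (hP : F.Sub P) {K : Set X} (hK : IsClosed K)
    (hE : ∀ x ∈ K, F.Ex P x) {u : S} (hu : u ∈ P) (hd : F.d u = 0) :
    ∃ a ∈ P ⊓ F.Van K, F.d a = 0 ∧ ∃ c ∈ P, u = a + F.d c := by
  obtain ⟨c, hc, h1⟩ := h.core hP hK hE hu fun x _ => by rw [hd]; exact (F.G x).zero_mem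
  refine ⟨u - F.d c, ⟨P.sub_mem hu (hP.d c hc), mem_Van.2 fun x hx => ?_⟩,
    by rw [map_sub, hd, h.dd, sub_zero], c, hc, (sub_add_cancel _ _).symm⟩
  rw [← neg_sub]
  exact (F.G x).neg_mem (h1 x hx)

/-- a boundary which vanishes near `K` has a primitive which vanishes near `K` -/
theorem OK.qinj (h : F.OK) (hP : F.Sub P) {K : Set X} (hK : IsClosed K)
    (hE : ∀ x ∈ K, F.Ex P x) {c : S} (hc : c ∈ P) (hd : F.d c ∈ F.Van K) :
    ∃ c' ∈ P ⊓ F.Van K, F.d c' = F.d c := by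
  obtain ⟨b, hb, h1⟩ := h.core hP hK hE hc (mem_Van.1 hd)
  refine ⟨c - F.d b, ⟨P.sub_mem hc (hP.d b hb), mem_Van.2 fun x hx => ?_⟩,
    by rw [map_sub, h.dd, sub_zero]⟩
  rw [← neg_sub]
  exact (F.G x).neg_mem (h1 x hx)

end Fine

end Vale.Agent.P275AR
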