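import Vale.Agent.P275AR.Aug
import Vale.Agent.P281Z.Mf.Sub

/-!
# P275, arrangements: the complex of a divisor with simple normal crossings
-/

open scoped Manifold ContDiff Topology Matrix
open Filter Set Function
open Vale.Agent.P272.K Vale.Agent.P281Z.Hg Vale.Agent.P275MC Vale.Agent.P275FM
open Vale.Agent.P299.IX Vale.Agent.P299.IX.Fock
open Vale.Agent.P281Z (HolM Mf Emb SubM off)
open Vale.Agent.P277Z.Slc (Snc St)
open Vale.Agent.P280Z.Pu (smo_of)

set_option linter.unusedSectionVars false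

noncomputable section

namespace Vale.Agent.P275AR

section fock

variable {r r' : ℕ}

theorem eps_ne {l : Fin r} {K I : FI r} (h : eps l K I ≠ 0) : l ∉ I ∧ K = insert l I := by
  by_contra k
  exact h (if_neg k)

theorem epsV_ne {v : Fin r → ℂ} {K I : FI r} (h : epsV v K I ≠ 0) :
    ∃ l, v l ≠ 0 ∧ l ∉ I ∧ K = insert l I := by
  rw [epsV_apply] at h
  obtain ⟨l, -, k⟩ := Finset.exists_ne_zero_of_sum_ne_zero h
  exact ⟨l, left_ne_zero_of_mul k, eps_ne (right_ne_zero_of_mul k)⟩

theorem iot_ne {l : Fin r} {K I : FI r} (h : iot l K I ≠ 0) : l ∉ K ∧ I = insert l K := eps_ne h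

/-- the support of the exterior power of a matrix -/
theorem lr_ne {J : Matrix (Fin r') (Fin r) ℂ} {K : FI r'} {I : FI r} (h : lr J K I ≠ 0)
    {l : Fin r} (hl : l ∈ I) : ∃ p ∈ K, J p l ≠ 0 := by
  have e := eps_ev_of_notMem (I.notMem_erase l)
  rw [Finset.insert_erase hl] at e
  have e1 := congrArg (fun v => (lr J *ᵥ v) K) e
  simp only [Matrix.mulVec_mulVec, f1a.lr_eps, Matrix.mulVec_smul, Pi.smul_apply, mulVec_ev',
    smul_eq_mul, Matrix.mul_apply] at e1
  have h1 : sg l (I.erase l) ≠ 0 := left_ne_zero_of_mul (by rw [sg_mul_self]; exact one_ne_zero)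
  obtain ⟨K', -, k⟩ := Finset.exists_ne_zero_of_sum_ne_zero (e1 ▸ mul_ne_zero h1 h)
  obtain ⟨p, k1, -, k2⟩ := epsV_ne (left_ne_zero_of_mul k)
  exact ⟨p, k2 ▸ Finset.mem_insert_self _ _, k1⟩

theorem lr_card {J : Matrix (Fin r') (Fin r) ℂ} {K : FI r'} {I : FI r} (h : lr J K I ≠ 0) :
    K.card = I.card := by
  have e := congrFun (congrFun (F1aH.dgl_lr (fun q => (q : ℂ)) J) K) I
  rw [dgl, dgl, Matrix.diagonal_mul, Matrix.mul_diagonal, mul_comm] at e
  exact_mod_cast mul_left_cancel₀ h e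

theorem lr_one : lr (1 : Matrix (Fin r) (Fin r) ℂ) = 1 := lam_one

/-- the matrix of a map of index sets -/
def mx (φ : Fin r' → Fin r) : Matrix (Fin r') (Fin r) ℂ :=
  Matrix.of fun p l => if φ p = l then 1 else 0

theorem mx_one (φ : Fin r' → Fin r) : mx φ *ᵥ 1 = 1 := funext fun p => by
  simp [mx, Matrix.mulVec, dotProduct]

theorem mx_ne {φ : Fin r' → Fin r} {p : Fin r'} {l : Fin r} (h : mx φ p l ≠ 0) : φ p = l := by
  by_contra k
  exact h (if_neg k)

theorem mx_comp {r'' : ℕ} (ψ : Fin r'' → Fin r') (φ : Fin r' → Fin r) :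
    mx (φ ∘ ψ) = mx ψ * mx φ := by
  ext p l
  simp only [mx, Matrix.mul_apply, Matrix.of_apply, ite_mul, one_mul, zero_mul, Finset.sum_ite_eq,
    Finset.mem_univ, if_true, comp_apply]

theorem mx_id : mx (id : Fin r → Fin r) = 1 := by
  ext p l
  simp [mx, Matrix.one_apply]

end fock

variable {n n' n'' r r' r'' : ℕ} {Y : Mf n} {Y' : Mf n'} {Y'' : Mf n''} {G : Fin r → Set Y.X}
  {G' : Fin r' → Set Y'.X} {G'' : Fin r'' → Set Y''.X}

theorem snc_closed (h : Snc n G) (l : Fin r) : IsClosed (G l) :=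
  P277Z.Slc.isClosed_of_leq fun x => ⟨_, (h x).choose_spec.1 l⟩

theorem St_closed (h : Snc n G) (I : FI r) : IsClosed (St G I) := by
  rw [show St G I = ⋂ l ∈ I, G l from Set.ext fun x => by simp [St]]
  exact isClosed_biInter fun l _ => snc_closed h l

theorem St_anti {I K : FI r} (h : I ⊆ K) : St G K ⊆ St G I := fun _ hx l hl => hx l (h hl)

theorem St_empty : St G ∅ = univ := eq_univ_of_forall fun _ _ hl => absurd hl (by simp)

theorem St_insert {l : Fin r} {I : FI r} {x : Y.X} : x ∈ St G (insert l I) ↔ x ∈ G l ∧ x ∈ St G I :=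
  Finset.forall_mem_insert _ _ _

theorem off_eq : off G = (⋃ l, G l)ᶜ := Set.ext fun x => by simp [off]

theorem un_closed (h : Snc n G) : IsClosed (⋃ l, G l) := isClosed_iUnion_of_finite (snc_closed h)

theorem off_open (h : Snc n G) : IsOpen (off G) := off_eq ▸ (un_closed h).isOpen_compl

theorem St_subM (h : Snc n G) (I : FI r) : SubM n (n - I.card) (St G I) := fun x hx => by
  obtain ⟨ζ, h1, h2⟩ := h x
  have h3 := h2.comp (fun a : Fin I.card =>
    (⟨I.equivFin.symm a, hx _ (I.equivFin.symm a).2⟩ : {l // x ∈ G l}))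
    fun a b e => I.equivFin.symm.injective (Subtype.ext (Subtype.mk.inj e))
  have h4 := P281Z.ind_le h3
  rw [Fintype.card_fin] at h4
  refine ⟨I.card, fun a => ζ (I.equivFin.symm a), by omega, h3, ?_⟩
  filter_upwards [eventually_all.2 fun l => (h1 l).1] with y hy
  refine ⟨fun k a => (hy _).2 (k _ (I.equivFin.symm a).2), fun k l hl => (hy l).1 ?_⟩
  simpa using k (I.equivFin ⟨l, hl⟩)

theorem ex_str (h : Snc n G) (I : FI r) :
    ∃ (V : Mf (n - I.card)) (i : V.X → Y.X), Emb (n - I.card) n i (St G I) :=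
  (St_subM h I).emb (St_closed h I).isCompact

/-- the stratum as a manifold -/
def str (h : Snc n G) (I : FI r) : Mf (n - I.card) := (ex_str h I).choose

/-- the inclusion of the stratum -/
def inc (h : Snc n G) (I : FI r) : (str h I).X → Y.X := (ex_str h I).choose_spec.choose

theorem inc_emb (h : Snc n G) (I : FI r) : Emb (n - I.card) n (inc h I) (St G I) :=
  (ex_str h I).choose_spec.choose_spec

/-- the family of the strata -/
@[reducible] def fam (h : Snc n G) : Fam where
  σ := FI r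
  n I := n - I.card
  S := str h
  col := Finset.card

/-- the maps between strata which cover `f` -/
def sys (h' : Snc n' G') (h : Snc n G) (f : Y'.X → Y.X) : Sys (fam h') (fam h) :=
  Sys.ov (B := fam h') (A := fam h) (inc h') (inc h) f

/-- the diagram of the strata -/
@[reducible] def arr (h : Snc n G) : Dia where
  toFam := fam h
  M := sys h h id
  c := epsV 1

variable {h : Snc n G} {h' : Snc n' G'} {h'' : Snc n'' G''} {f : Y'.X → Y.X} {g : Y''.X → Y'.X}
  {I : FI r} {I' : FI r'}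

theorem sys_ov : (sys h' h f).Ov (inc h') (inc h) f := Sys.ov_Ov

theorem sys_R (hf : HolM n' n f) : (sys h' h f).R I' I ↔ MapsTo f (St G' I') (St G I) := by
  refine ⟨fun ⟨k, _, e⟩ x hx => ?_, fun k => (inc_emb h I).lift (hf.comp (inc_emb h' I').hol)
    fun z => k ((inc_emb h' I').mem z)⟩
  obtain ⟨z, rfl⟩ := (inc_emb h' I').ex hx
  exact e z ▸ (inc_emb h I).mem _

theorem sys_cmp {k : Y''.X → Y.X} (e : ∀ x, k x = f (g x)) :
    (sys h'' h' g).Cmp (sys h' h f) (sys h'' h k) :=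
  Sys.ov_cmp (fun I => (inc_emb h I).inj) sys_ov sys_ov fun _ _ => e _

/-- the pull-back from the stratum `I` to the stratum `I'` (zero if `f` does not map the second to
the first) -/
abbrev pl (h' : Snc n' G') (h : Snc n G) (f : Y'.X → Y.X) (I' : FI r') (I : FI r) :
    (arr h).F I →ₗ[ℂ] (arr h').F I' := (sys h' h f).P I' I

theorem pl_eq {k : (str h' I').X → (str h I).X} (hk : HolM _ _ k)
    (e : ∀ z, inc h I (k z) = f (inc h' I' z)) : pl h' h f I' I = pb (smo_of hk) :=
  Sys.ov_P (B := fam h') (A := fam h) (inc_emb h I).inj hk e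

theorem sup_epsV (v : Fin r → ℂ) : (sys h h id).Sup (epsV v) := fun _ _ k => by
  obtain ⟨l, -, -, rfl⟩ := epsV_ne k
  exact (sys_R P281Z.holM_id).2 fun _ hx => (St_insert.1 hx).2

theorem arr_ok (h : Snc n G) : (arr h).OK where
  cmp := sys_cmp fun _ => rfl
  sup := sup_epsV 1
  cc := epsV_sq 1
  col _ _ k := by
    obtain ⟨l, -, hl, rfl⟩ := epsV_ne k
    exact Finset.card_insert_of_notMem hl

theorem arr_kah (h : Snc n G) (k : Y.Kah) : (arr h).Kah := fun I => (inc_emb h I).kah k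

/-- the strata over the manifold -/
def ovr (h : Snc n G) : (arr h).Ov Y where
  p := inc h
  hol I := (inc_emb h I).hol
  ov := sys_ov

theorem act_one (u : (arr h).T) : (sys h h id).act 1 u = u := funext fun I => by
  rw [Sys.act_apply, Finset.sum_eq_single I, Matrix.one_apply_eq, one_smul]
  · exact (LinearMap.congr_fun (pl_eq (k := id) P281Z.holM_id fun _ => rfl) _).trans (pb_id _)
  · exact fun K _ hK => by rw [Matrix.one_apply_ne hK.symm, zero_smul]
  · exact fun k => absurd (Finset.mem_univ I) k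

/-- a component through `x` is a cone point -/
theorem acy {Q : Set (FI r)} {x : Y.X} {l : Fin r} (hx : x ∈ G l)
    (hQ : ∀ I, l ∉ I → insert l I ∈ Q → I ∈ Q) : (ovr h).Acy Q x where
  inj I _ _ _ e e' := (inc_emb h I).inj (e.trans e'.symm)
  ex k hk h0 := by
    refine ⟨iot l *ᵥ k, fun I hI => ?_, fun I hI => ?_⟩
    · rw [iot_mulVec]
      split_ifs with a
      · rfl
      · rw [hk _ fun b => hI (hQ I a b), mul_zero]
    · have e := congrFun (congrArg (· *ᵥ k) (iot_epsV l 1)) I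
      simp only [Matrix.add_mulVec, Pi.one_apply, one_smul, Matrix.one_mulVec, Pi.add_apply,
        ← Matrix.mulVec_mulVec] at e
      rw [iot_mulVec] at e
      refine Eq.trans ?_ e
      split_ifs with a
      · exact (zero_add _).symm
      · have := h0 (insert l I) ((inc_emb h _).rng.symm.subset
          (St_insert.2 ⟨hx, (inc_emb h I).rng.subset hI⟩))
        rw [show (epsV 1 *ᵥ k) (insert l I) = 0 from this, mul_zero, zero_add]

theorem arr_top (h : Snc n G) : (ovr h).Top (∅ : FI r) (⋃ l, G l) where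
  inv := by
    obtain ⟨g, h1, h2⟩ := (inc_emb h ∅).lift P281Z.holM_id fun _ => St_empty.symm.subset trivial
    exact ⟨g, h1, h2, fun z => (inc_emb h ∅).inj (h2 _)⟩
  sub I hI z := by
    obtain ⟨l, hl⟩ := Finset.nonempty_iff_ne_empty.2 hI
    exact mem_iUnion.2 ⟨l, (inc_emb h I).mem z l hl⟩
  closed := un_closed h
  acy x hx := by
    obtain ⟨l, hl⟩ := mem_iUnion.1 hx
    exact acy hl fun _ _ _ => trivial

/-- forms on the manifold placed in the column `0` -/
def ext0 (h : Snc n G) : SF n Y.X →ₗ[ℂ] (arr h).T := (ovr h).e0 (∅ : FI r)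

theorem ext0_eq (a : SF n Y.X) : ext0 h a = (ovr h).aug (ev ∅) a := rfl

theorem D_ext0 {a : SF n Y.X} (ha : a ∈ Ac n (off G)) :
    (arr h).tri.D (ext0 h a) = ext0 h (dd _ _ a) :=
  (Dia.tri_D_apply _).trans ((arr_top h).D_e0 (V := univ) (arr_ok h)
    (by rwa [← compl_eq_univ_sdiff, ← off_eq]))

theorem ch_ext0 (h : Snc n G) : Ch (dc n (off G)) (arr h).tri.D ((ext0 h).domRestrict _) :=
  ch_dom fun _ => D_ext0

/-- **the complex of the strata computes the cohomology with compact supports of the complement** -/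
theorem bij_ext0 (h : Snc n G) : Bijective (Coh.map _ (ch_ext0 h)) := by
  have a := (arr_top h).bij' (arr_ok h)
  refine ⟨(inj_dom _).2 ?_, (surj_dom _).2 ?_⟩
  · rw [off_eq]
    exact (inj_dom _).1 a.1
  · rw [off_eq]
    exact (surj_dom _).1 a.2

section mor

variable (G' G) in
/-- `f` maps the component `p` to the component `l` when `J p l ≠ 0` -/
def Cmb (f : Y'.X → Y.X) (J : Matrix (Fin r') (Fin r) ℂ) : Prop :=
  ∀ p l, J p l ≠ 0 → MapsTo f (G' p) (G l)

variable {J : Matrix (Fin r') (Fin r) ℂ} {J' : Matrix (Fin r'') (Fin r') ℂ}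

theorem Cmb.sup (k : Cmb G G' f J) (hf : HolM n' n f) : (sys h' h f).Sup (lr J) := fun _ _ a =>
  (sys_R hf).2 fun _ hx _ hl =>
    let ⟨p, hp, b⟩ := lr_ne a hl
    k p _ b (hx p hp)

theorem cmb_mx {φ : Fin r' → Fin r} (k : ∀ p, MapsTo f (G' p) (G (φ p))) : Cmb G G' f (mx φ) :=
  fun p _ a => mx_ne a ▸ k p

/-- the pull-back by a map of pairs -/
def pul (h' : Snc n' G') (h : Snc n G) (f : Y'.X → Y.X) (J : Matrix (Fin r') (Fin r) ℂ) :
    (arr h).T →ₗ[ℂ] (arr h').T := (sys h' h f).act (lr J)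

theorem lr_c (e : J *ᵥ 1 = 1) :
    (epsV 1 * lr J : Matrix (FI r') (FI r) ℂ) = (lr J * epsV 1 : Matrix (FI r') (FI r) ℂ) := by
  have := F1aH.lr_epsV J 1
  rw [e] at this
  exact this.symm

/-- **maps of pairs induce morphisms** -/
theorem pul_mor (hf : HolM n' n f) (k : Cmb G G' f J) (e : J *ᵥ 1 = 1) :
    Tri.Mor (arr h).tri (arr h').tri 0 (pul h' h f J) :=
  Dia.mor (arr_ok h) (arr_ok h') (sys_cmp fun _ => rfl) (sys_cmp fun _ => rfl) (k.sup hf) (lr_c e)

theorem pul_D (hf : HolM n' n f) (k : Cmb G G' f J) (e : J *ᵥ 1 = 1) (u : (arr h).T) :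
    (arr h').D (pul h' h f J u) = pul h' h f J ((arr h).D u) :=
  Dia.act_D (arr_ok h) (arr_ok h') (sys_cmp fun _ => rfl) (sys_cmp fun _ => rfl) (k.sup hf)
    (lr_c e) u

theorem pul_ext0 (hf : HolM n' n f) (k : Cmb G G' f J) (a : SF n Y.X) :
    pul h' h f J (ext0 h a) = ext0 h' (pb (smo_of hf) a) :=
  (Dia.Ov.act_aug (B := ovr h) (B' := ovr h') hf sys_ov (k.sup hf) _ a).trans
    (by rw [ext0_eq, ← f1a.lr_ev J]; rfl)

theorem pul_pul (hf : HolM n' n f) (hg : HolM n'' n' g) (k : Cmb G G' f J) (k' : Cmb G' G'' g J')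
    (u : (arr h).T) : pul h'' h' g J' (pul h' h f J u) = pul h'' h (f ∘ g) (J' * J) u := by
  have := (sys_cmp (h := h) (h' := h') (h'' := h'') (k := f ∘ g) fun _ => rfl).act
    (k'.sup hg) (k.sup hf) u
  rw [← f1a.lr_mul] at this
  exact this

theorem pul_id (u : (arr h).T) : pul h h id 1 u = u := by
  rw [pul, lr_one]
  exact act_one u

theorem pul_gl (a : ℕ → ℕ → ℂ) (u : (arr h).T) :
    pul h' h f J ((arr h).gl (fun I => a I.card) u) =
      (arr h').gl (fun I => a I.card) (pul h' h f J u) :=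
  Sys.act_gl (M := sys h' h f) (c := lr J) (a := fun I => a I.card) (b := fun I => a I.card)
    (fun _ _ k => congrArg a (lr_card k).symm) u

theorem pul_Kc {V : Set Y.X} {u : (arr h).T} (hu : u ∈ (ovr h).Kc V) :
    pul h' h f J u ∈ (ovr h').Kc (f ⁻¹' V) := Dia.Ov.act_Kc sys_ov hu

theorem pul_wd (hf : HolM n' n f) (y : SF n Y.X) (u : (arr h).T) :
    pul h' h f J ((ovr h).wd y u) = (ovr h').wd (pb (smo_of hf) y) (pul h' h f J u) :=
  Dia.Ov.act_wd (B := ovr h) (B' := ovr h') hf sys_ov y u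

theorem Cmb.off (k : Cmb G G' f J) (e : J *ᵥ 1 = 1) : f ⁻¹' off G ⊆ off G' := fun x hx p hp => by
  have : ∑ l, J p l * 1 = 1 := congrFun e p
  obtain ⟨l, -, a⟩ := Finset.exists_ne_zero_of_sum_ne_zero (this.trans_ne one_ne_zero)
  exact hx l (k p l (left_ne_zero_of_mul a) hp)

theorem Cmb.act (k : Cmb G G' f J) (hf : HolM n' n f) (e : J *ᵥ 1 = 1) :
    Act (P281Z.off G) (P281Z.off G') (pb (smo_of hf)) :=
  Act.pb _ (fun _ hK _ => (hK.isClosed.preimage hf.cont).isCompact) (k.off e)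

/-- compatibility on cohomology -/
theorem pul_map (hf : HolM n' n f) (k : Cmb G G' f J) (e : J *ᵥ 1 = 1) (x : Hc n (off G)) :
    Coh.map _ (pul_mor hf k e).ch (Coh.map _ (ch_ext0 h) x) =
      Coh.map _ (ch_ext0 h') ((k.act hf e).map x) := by
  obtain ⟨z, hz, rfl⟩ := Coh.ind x
  exact Coh.mk_congr (pul_ext0 hf k z) _

end mor

end Vale.Agent.P275AR
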