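import Vale.Agent.P275AR.Dia
import Vale.Agent.P275AR.Hc

/-!
# P275, arrangements: comparison of the total complex with the forms on the base
-/

open scoped Manifold ContDiff Topology Matrix
open Filter Set Function
open Vale.Agent.P272.K Vale.Agent.P281Z.Hg Vale.Agent.P275MC Vale.Agent.P275FM
open Vale.Agent.P281Z (HolM Mf)
open Vale.Agent.P280Z.Pu (smo_of)

set_option linter.unusedSectionVars false

noncomputable section

namespace Vale.Agent.P275AR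

namespace Dia

variable {X X' : Dia} {N N' : ℕ} {Y : Mf N} {Y' : Mf N'}

/-- pull-back of forms from the base, with the coefficients `k` -/
def Ov.aug (B : X.Ov Y) (k : X.σ → ℂ) : SF N Y.X →ₗ[ℂ] X.T :=
  LinearMap.pi fun s => k s • pb (smo_of (B.hol s))

/-- exterior multiplication by a form on the base -/
def Ov.wd (B : X.Ov Y) (y : SF N Y.X) : Module.End ℂ X.T :=
  LinearMap.piMap fun s => P275MC.wd (pb (smo_of (B.hol s)) y)

variable {B : X.Ov Y} {B' : X'.Ov Y'} {u : X.T} {V W Z : Set Y.X} {Q : Set X.σ} {k : X.σ → ℂ}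
  {a : SF N Y.X} {M : Sys X'.toFam X.toFam} {c : Matrix X'.σ X.σ ℂ} {f : Y'.X → Y.X}

theorem Ov.aug_apply (k : X.σ → ℂ) (a : SF N Y.X) (s : X.σ) :
    B.aug k a s = k s • pb (smo_of (B.hol s)) a := rfl

theorem Ov.wd_apply (y : SF N Y.X) (u : X.T) (s : X.σ) :
    B.wd y u s = P275MC.wd (pb (smo_of (B.hol s)) y) (u s) := rfl

theorem Ov.d_aug (k : X.σ → ℂ) (a : SF N Y.X) : X.d (B.aug k a) = B.aug k (dd _ _ a) :=
  funext fun s => by rw [Fam.d_apply, aug_apply, aug_apply, map_smul, pb_dd]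

theorem Ov.del_aug (k : X.σ → ℂ) (a : SF N Y.X) : X.del (B.aug k a) = B.aug k (del _ _ a) :=
  funext fun s => by rw [Fam.del_apply, aug_apply, aug_apply, map_smul, pb_del (B.hol s)]

theorem Ov.ty_aug (j : ℕ) (k : X.σ → ℂ) (a : SF N Y.X) :
    X.ty j (B.aug k a) = B.aug k (ty _ _ j a) :=
  funext fun s => by rw [Fam.ty_apply, aug_apply, aug_apply, map_smul, pb_ty (B.hol s)]

theorem Ov.gl_aug (e : ℕ → ℂ) (k : X.σ → ℂ) (a : SF N Y.X) :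
    X.gl (fun _ => e) (B.aug k a) = B.aug k (gl _ _ e a) :=
  funext fun s => by rw [Fam.gl_apply, aug_apply, aug_apply, map_smul, pb_gl]

theorem Ov.par_aug (k : X.σ → ℂ) (a : SF N Y.X) : X.par (B.aug k a) = B.aug k (pr _ _ a) :=
  gl_aug _ k a

theorem Ov.dg_aug (q : ℕ) (k : X.σ → ℂ) (a : SF N Y.X) :
    X.dg q (B.aug k a) = B.aug k (pj _ _ q a) := by
  rw [pj_eq']
  exact gl_aug _ k a

theorem Ov.wd_aug (y : SF N Y.X) (k : X.σ → ℂ) (a : SF N Y.X) :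
    B.wd y (B.aug k a) = B.aug k (P275MC.wd y a) :=
  funext fun s => by rw [wd_apply, aug_apply, aug_apply, map_smul, pb_wd]

theorem Ov.pb_pb (hf : HolM N' N f) (ho : M.Ov B'.p B.p f) {t : X'.σ} {s : X.σ} (h : M.R t s)
    (a : SF N Y.X) : pb (smo_of (M.hol t s h)) (pb (smo_of (B.hol s)) a) =
      pb (smo_of (B'.hol t)) (pb (smo_of hf) a) := by
  rw [← pb_comp, ← pb_comp]
  exact pb_eq _ _ (ho t s h) a

/-- compatibility with the pull-backs -/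
theorem Ov.act_aug (hf : HolM N' N f) (ho : M.Ov B'.p B.p f) (hc : M.Sup c) (k : X.σ → ℂ)
    (a : SF N Y.X) : M.act c (B.aug k a) = B'.aug (c *ᵥ k) (pb (smo_of hf) a) := funext fun t => by
  rw [Sys.act_apply, aug_apply, Matrix.mulVec, dotProduct, Finset.sum_smul]
  refine Finset.sum_congr rfl fun s _ => ?_
  by_cases h0 : c t s = 0
  · rw [h0, zero_smul, zero_mul, zero_smul]
  · rw [Sys.P_of (hc t s h0), aug_apply, map_smul, pb_pb hf ho, smul_smul]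

theorem Ov.act_wd (hf : HolM N' N f) (ho : M.Ov B'.p B.p f) (y : SF N Y.X) (u : X.T) :
    M.act c (B.wd y u) = B'.wd (pb (smo_of hf) y) (M.act c u) :=
  Sys.act_op (fun t s h v _ => by rw [pb_wd, pb_pb hf ho]) u

theorem Ov.act_Kc (ho : M.Ov B'.p B.p f) (hu : u ∈ B.Kc V) : M.act c u ∈ B'.Kc (f ⁻¹' V) :=
  mem_Kc.2 fun t => Ac_iff.2 fun z hz => Sys.act_Nb fun s h _ =>
    Ac_iff.1 (mem_Kc.1 hu s) _ (by rwa [mem_preimage, ho t s h])

theorem Ov.δ_aug (h : X.OK) (k : X.σ → ℂ) (a : SF N Y.X) :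
    X.δ (B.aug k a) = B.aug (X.c *ᵥ k) (pr _ _ a) := by
  rw [δ_apply, par_aug, act_aug (f := id) contMDiff_id B.ov h.sup]
  exact congrArg _ (pb_id _)

theorem Ov.aug_Kc (k : X.σ → ℂ) (ha : a ∈ Ac N V) : B.aug k a ∈ B.Kc V :=
  mem_Kc.2 fun _ => Submodule.smul_mem _ _
    (Ac_iff.2 fun _ hz => pb_Nb _ (Ac_iff.1 ha _ hz))

theorem Ov.Kc_mono (h : V ⊆ W) : B.Kc V ≤ B.Kc W := fun _ hu =>
  mem_Kc.2 fun s => Ac_mono (preimage_mono h) (mem_Kc.1 hu s)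

theorem Ov.Kc_univ : B.Kc univ = ⊤ :=
  eq_top_iff.2 fun u _ => mem_Kc.2 fun s => by rw [preimage_univ, Ac_univ]; trivial

theorem Ov.Kc_zero (hu : u ∈ B.Kc V) {s : X.σ} (h : ∀ z, B.p s z ∉ V) : u s = 0 :=
  eq_zero_of_ZP fun z => Nb_ZP (Ac_iff.1 (mem_Kc.1 hu s) z (h z))

theorem Ov.aug_zero (ha : a ∈ Ac N V) (h : ∀ s, k s ≠ 0 → ∀ z, B.p s z ∉ V) : B.aug k a = 0 :=
  funext fun s => by
    by_cases h0 : k s = 0
    · rw [aug_apply, h0, zero_smul]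
      rfl
    · exact Kc_zero (aug_Kc k ha) (h s h0)

theorem Ov.Kc_diff (V Z : Set Y.X) : B.Kc (V \ Z) = B.Kc V ⊓ B.fine.Van Z := by
  rw [Kc_eq, Kc_eq, ← Fine.Van_union, sdiff_eq, compl_inter, compl_compl]

theorem Ov.D_Kc (h : X.OK) (hu : u ∈ B.Kc V) : X.D u ∈ B.Kc V := by
  rw [Kc_eq] at hu ⊢
  exact ((B.ok h).sub_Van _).d u hu

theorem Ov.wd_Kc (y : SF N Y.X) (hu : u ∈ B.Kc V) : B.wd y u ∈ B.Kc V :=
  mem_Kc.2 fun s => wd_Ac _ (mem_Kc.1 hu s)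

theorem Ov.gl_Kc (e : X.σ → ℕ → ℂ) (hu : u ∈ B.Kc V) : X.gl e u ∈ B.Kc V :=
  mem_Kc.2 fun s => op_Ac (opr_vl _) (mem_Kc.1 hu s)

section qis

variable (h : X.OK) (hQ : ∀ t s, X.c t s ≠ 0 → s ∈ Q → t ∈ Q) (hV : IsOpen V) (hZ : IsClosed Z)
  (ha : ∀ x ∈ V, x ∈ Z → B.Acy Q x)
include h hQ hV hZ ha

/-- cycles can be moved away from the set where the diagram is acyclic -/
theorem Ov.qsurj (hu : u ∈ X.On Q ⊓ B.Kc V) (hd : X.D u = 0) :
    ∃ a ∈ X.On Q ⊓ B.Kc (V \ Z), X.D a = 0 ∧ ∃ c ∈ X.On Q ⊓ B.Kc V, u = a + X.D c := by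
  rw [Kc_diff, ← inf_assoc]
  rw [Kc_eq] at hu ⊢
  exact (B.ok h).qsurj ((B.sub_On hQ).inf ((B.ok h).sub_Van _)) hZ (fun x hx =>
    (B.ok h).ex_Van (B.sub_On hQ) hV.isClosed_compl fun k =>
      ex h hQ (ha x (not_not.1 k) hx)) hu hd

/-- primitives can be moved away from the set where the diagram is acyclic -/
theorem Ov.qinj (hu : u ∈ X.On Q ⊓ B.Kc V) (hd : X.D u ∈ B.Kc (V \ Z)) :
    ∃ c ∈ X.On Q ⊓ B.Kc (V \ Z), X.D c = X.D u := by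
  rw [Kc_diff] at hd
  rw [Kc_diff, ← inf_assoc]
  rw [Kc_eq] at hu ⊢
  exact (B.ok h).qinj ((B.sub_On hQ).inf ((B.ok h).sub_Van _)) hZ (fun x hx =>
    (B.ok h).ex_Van (B.sub_On hQ) hV.isClosed_compl fun k =>
      ex h hQ (ha x (not_not.1 k) hx)) hu hd.2

end qis

/-- a complex which is acyclic at every point of `V` is exact over `V` -/
theorem Ov.exact (h : X.OK) (hQ : ∀ t s, X.c t s ≠ 0 → s ∈ Q → t ∈ Q) (hV : IsOpen V)
    (ha : ∀ x ∈ V, B.Acy Q x) (hu : u ∈ X.On Q ⊓ B.Kc V) (hd : X.D u = 0) :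
    ∃ c ∈ X.On Q ⊓ B.Kc V, X.D c = u := by
  obtain ⟨a, h1, -, c, h2, h3⟩ :=
    Ov.qsurj h hQ hV isClosed_univ (fun x hx _ => ha x hx) hu hd
  have : a = 0 := funext fun s => Ov.Kc_zero h1.2 fun _ hz => hz.2 trivial
  exact ⟨c, h2, by rw [h3, this, zero_add]⟩

theorem On_univ : X.On univ = ⊤ := eq_top_iff.2 fun _ _ _ hs => absurd trivial hs

/-- the piece `s₀` is the base, the other pieces lie over `Z`, where the diagram is acyclic -/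
structure Ov.Top (B : X.Ov Y) (s₀ : X.σ) (Z : Set Y.X) : Prop where
  inv : ∃ g : Y.X → (X.S s₀).X, HolM N (X.n s₀) g ∧ (∀ y, B.p s₀ (g y) = y) ∧
    ∀ z, g (B.p s₀ z) = z
  sub : ∀ s, s ≠ s₀ → ∀ z, B.p s z ∈ Z
  closed : IsClosed Z
  acy : ∀ x ∈ Z, B.Acy univ x

/-- forms on the base placed on the piece `s₀` -/
def Ov.e0 (B : X.Ov Y) (s₀ : X.σ) : SF N Y.X →ₗ[ℂ] X.T := B.aug (Pi.single s₀ 1)

variable {s₀ : X.σ}

theorem Ov.e0_self (a : SF N Y.X) : B.e0 s₀ a s₀ = pb (smo_of (B.hol s₀)) a := by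
  rw [e0, aug_apply, Pi.single_eq_same, one_smul]

theorem Ov.e0_ne (a : SF N Y.X) {s : X.σ} (h : s ≠ s₀) : B.e0 s₀ a s = 0 := by
  rw [e0, aug_apply, Pi.single_eq_of_ne h, zero_smul]

theorem Ov.Top.δ_e0 (t : B.Top s₀ Z) (h : X.OK) (ha : a ∈ Ac N (V \ Z)) :
    X.δ (B.e0 s₀ a) = 0 := by
  rw [Ov.e0, Ov.δ_aug h]
  refine Ov.aug_zero (V := V \ Z) (op_Ac (opr_vl _) ha) fun s hs z hz => hz.2 (t.sub s ?_ z)
  rintro rfl
  rw [Matrix.mulVec_single_one] at hs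
  exact absurd (h.col s s hs) (by omega)

theorem Ov.Top.D_e0 (t : B.Top s₀ Z) (h : X.OK) (ha : a ∈ Ac N (V \ Z)) :
    X.D (B.e0 s₀ a) = B.e0 s₀ (dd _ _ a) := by
  rw [D_apply, t.δ_e0 h ha, add_zero, Ov.e0, Ov.d_aug]

theorem Ov.Top.e0_inj (t : B.Top s₀ Z) : Injective (B.e0 s₀) := by
  obtain ⟨g, h1, h2, -⟩ := t.inv
  refine (injective_iff_map_eq_zero _).2 fun a h => ?_
  have e := congrArg (pb (smo_of h1)) ((Ov.e0_self a).symm.trans (congrFun h s₀))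
  rw [← pb_comp, pb_eq _ Pb1H.smo_id h2, pb_id] at e
  exact e.trans (map_zero _)

theorem Ov.Top.e0_surj (t : B.Top s₀ Z) (hu : u ∈ B.Kc (V \ Z)) :
    ∃ a ∈ Ac N (V \ Z), B.e0 s₀ a = u := by
  obtain ⟨g, h1, h2, h3⟩ := t.inv
  refine ⟨pb (smo_of h1) (u s₀), Ac_iff.2 fun y hy => pb_Nb _
    (Ac_iff.1 (Ov.mem_Kc.1 hu s₀) _ (by rwa [mem_preimage, h2])), funext fun s => ?_⟩
  by_cases hs : s = s₀
  · subst hs
    rw [Ov.e0_self, ← pb_comp, pb_eq _ Pb1H.smo_id h3, pb_id]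
  · rw [Ov.e0_ne _ hs, Ov.Kc_zero hu fun z hz => hz.2 (t.sub s hs z)]

theorem Ov.Top.surj (t : B.Top s₀ Z) (h : X.OK) (hV : IsOpen V) (hu : u ∈ B.Kc V)
    (hd : X.D u = 0) :
    ∃ a ∈ Ac N (V \ Z), ∃ y ∈ B.Kc V, dd _ _ a = 0 ∧ B.e0 s₀ a - u = X.D y := by
  obtain ⟨b, h1, h2, c, h3, h4⟩ := Ov.qsurj h (Q := univ) (fun _ _ _ _ => trivial) hV t.closed
    (fun x _ hx => t.acy x hx) ⟨fun _ hs => absurd trivial hs, hu⟩ hd
  obtain ⟨a, h5, rfl⟩ := t.e0_surj h1.2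
  refine ⟨a, h5, -c, Submodule.neg_mem _ h3.2, t.e0_inj ?_, ?_⟩
  · rw [← t.D_e0 h h5, h2, map_zero]
  · rw [h4, map_neg]
    abel

theorem Ov.Top.inj (t : B.Top s₀ Z) (h : X.OK) (hV : IsOpen V) (ha : a ∈ Ac N (V \ Z))
    (hu : u ∈ B.Kc V) (e : B.e0 s₀ a = X.D u) : ∃ b ∈ Ac N (V \ Z), a = dd _ _ b := by
  obtain ⟨c, h1, h2⟩ := Ov.qinj h (Q := univ) (fun _ _ _ _ => trivial) hV t.closed
    (fun x _ hx => t.acy x hx) ⟨fun _ hs => absurd trivial hs, hu⟩ (e ▸ Ov.aug_Kc _ ha)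
  obtain ⟨b, h3, rfl⟩ := t.e0_surj h1.2
  exact ⟨b, h3, t.e0_inj (by rw [e, ← h2, t.D_e0 h h3])⟩

/-- the total differential on the elements with support in `V` -/
def Ov.Dc (B : X.Ov Y) (h : X.OK) (V : Set Y.X) : Module.End ℂ (B.Kc V) :=
  X.D.restrict fun _ => Ov.D_Kc h

/-- extension by zero -/
def Ov.ec (B : X.Ov Y) (s₀ : X.σ) (V Z : Set Y.X) : Ac N (V \ Z) →ₗ[ℂ] B.Kc V :=
  (B.e0 s₀).restrict fun _ ha => Ov.Kc_mono sdiff_subset (Ov.aug_Kc _ ha)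

theorem Ov.Top.ch (t : B.Top s₀ Z) (h : X.OK) (V : Set Y.X) :
    Ch (dc N (V \ Z)) (B.Dc h V) (B.ec s₀ V Z) := ch_res fun _ => t.D_e0 h

/-- **the total complex with supports in `V` computes the cohomology of `V \ Z`** -/
theorem Ov.Top.bij (t : B.Top s₀ Z) (h : X.OK) (hV : IsOpen V) :
    Bijective (Coh.map _ (t.ch h V)) :=
  ⟨(inj_res _).2 fun _ ha _ hu _ e => t.inj h hV ha hu e,
    (surj_res _).2 fun _ hu e => t.surj h hV hu e⟩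

theorem tri_D_apply (u : X.T) : X.tri.D u = X.D u := by rw [tri_D]

theorem Ov.Top.ch' (t : B.Top s₀ Z) (h : X.OK) :
    Ch (dc N Zᶜ) X.tri.D ((B.e0 s₀).domRestrict _) :=
  ch_dom fun _ ha => (tri_D_apply _).trans (t.D_e0 (V := univ) h (by rwa [← compl_eq_univ_sdiff]))

/-- **the total complex computes the cohomology with compact supports of the complement of `Z`** -/
theorem Ov.Top.bij' (t : B.Top s₀ Z) (h : X.OK) : Bijective (Coh.map _ (t.ch' h)) := by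
  refine ⟨(inj_dom _).2 fun a ha u _ e => ?_, (surj_dom _).2 fun u e => ?_⟩
  · rw [compl_eq_univ_sdiff] at ha ⊢
    exact t.inj h isOpen_univ ha (Ov.Kc_univ (B := B) ▸ Submodule.mem_top (x := u))
      (e.trans (tri_D_apply u))
  · obtain ⟨a, h1, y, -, h2, h3⟩ := t.surj h isOpen_univ
      (Ov.Kc_univ (B := B) ▸ Submodule.mem_top (x := u)) ((tri_D_apply u).symm.trans e)
    exact ⟨a, by rwa [compl_eq_univ_sdiff], y, h2, h3.trans (tri_D_apply y).symm⟩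

end Dia

end Vale.Agent.P275AR
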