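import Vale.Agent.P275AR.Arr
import Vale.Agent.P275FM.Kah
import Vale.Agent.P275RG.Ext

/-!
# P275, arrangements: the weights on the cohomology with compact supports of a variety
-/

open scoped Manifold ContDiff Topology Matrix
open Filter Set Function
open Vale.Agent.P272.K Vale.Agent.P281Z.Hg Vale.Agent.P275MC Vale.Agent.P275FM
open Vale.Agent.P281Z (HolM Mf Emb off)
open Vale.Agent.P275RG
open Vale.Agent.P280Z.Pu (smo_of)

set_option linter.unusedSectionVars false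

noncomputable section

namespace Vale.Agent.P275AR

namespace Dia

variable {X : Dia} {N : ℕ} {Y : Mf N}

/-- **multiplication by a form on the base is a morphism** -/
theorem Ov.mor_wd (B : X.Ov Y) {s : ℕ} {y : SF N Y.X} (hy : y ∈ Dg N Y.X s) (h1 : del _ _ y = 0)
    (h2 : dlb _ _ y = 0) : Tri.Mor X.tri X.tri s (B.wd y) := by
  have a : ∀ t, pr _ _ (pb (smo_of (B.hol t)) y) = (-1 : ℂ) ^ s • pb (smo_of (B.hol t)) y :=
    fun t => by rw [← pb_pr, ← pj_eq hy, pr_pj, map_smul]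
  have b : ∀ u, X.par (B.wd y u) = (-1 : ℂ) ^ s • B.wd y (X.par u) := fun u => funext fun t => by
    refine gr_pj.map_ext (f := (pr _ _ ∘ₗ P275MC.wd (pb (smo_of (B.hol t)) y)).toAddMonoidHom)
      (g := (((-1 : ℂ) ^ s) • (P275MC.wd (pb (smo_of (B.hol t)) y) ∘ₗ pr _ _)).toAddMonoidHom)
      (fun q v => ?_) (u t)
    change pr _ _ (P275MC.wd _ (pj _ _ q v)) = (-1 : ℂ) ^ s • P275MC.wd _ (pr _ _ (pj _ _ q v))
    rw [← pj_wd (pb_Dg _ hy), pr_pj, pr_pj, map_smul, pj_wd (pb_Dg _ hy), smul_smul, ← pow_add,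
      add_comm]
  refine ⟨⟨(-1) ^ s, pow_ne_zero _ (neg_ne_zero.2 one_ne_zero), fun u => funext fun t => ?_,
    fun u => funext fun t => ?_, fun u => ?_⟩, fun q u => funext fun t => ?_⟩
  · change del _ _ (P275MC.wd (pb (smo_of (B.hol t)) y) (u t)) =
      (-1 : ℂ) ^ s • P275MC.wd (pb (smo_of (B.hol t)) y) (del _ _ (u t))
    rw [del_wd, ← pb_del (B.hol t), h1, map_zero, wd_zero, zero_add, a, wd_smul]
  · change dlb _ _ (P275MC.wd (pb (smo_of (B.hol t)) y) (u t)) =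
      (-1 : ℂ) ^ s • P275MC.wd (pb (smo_of (B.hol t)) y) (dlb _ _ (u t))
    rw [dlb_wd, ← pb_dlb (B.hol t), h2, map_zero, wd_zero, zero_add, a, wd_smul]
  · change X.δ _ = _ • B.wd y (X.δ u)
    rw [δ_apply, δ_apply, b, map_smul, Ov.act_wd (f := id) contMDiff_id B.ov]
    exact congrArg (fun v => (-1 : ℂ) ^ s • B.wd v _) (pb_id y)
  · change X.dg _ _ t = B.wd y (X.dg q u) t
    rw [Fam.dg_apply, Ov.wd_apply, Ov.wd_apply, Fam.dg_apply, pj_wd (pb_Dg _ hy)]

end Dia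

variable {n m : ℕ} {U V : Type} [TopologicalSpace U] [ChartedSpace (Cm n) U] [T2Space U]
  [IsManifold 𝓘(ℂ, Cm n) ω U] [TopologicalSpace V] [ChartedSpace (Cm m) V] [T2Space V]
  [IsManifold 𝓘(ℂ, Cm m) ω V]

/-- the diagram of a pair -/
abbrev KP (P : Pr n) : Dia := arr P.snc

theorem KP_ok (P : Pr n) : (KP P).tri.OK := (arr_ok P.snc).tri (arr_kah P.snc P.kah)

section one

variable (c : Cp n U)

/-- the diagram of a good compactification -/
abbrev KC : Dia := arr c.snc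

theorem KC_ok : (KC c).tri.OK := KP_ok c.toPr

theorem oe : OE n c.j := oe_of_emb c.emb

/-- extension by zero into the column `0` -/
def em : SF n U →ₗ[ℂ] (KC c).T := ext0 c.snc ∘ₗ (oe c).ext

theorem em_apply (a : SF n U) : em c a = ext0 c.snc ((oe c).ext a) := rfl

theorem img_pre (W : Set c.Y.X) : c.j '' (c.j ⁻¹' W) = W \ ⋃ l, c.G l := by
  rw [image_preimage_eq_inter_range, c.emb.rng, off_eq, sdiff_eq]

theorem img_univ : c.j '' univ = off c.G := image_univ.trans c.emb.rng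

variable {c} {a : SF n U} {W : Set c.Y.X} {u : (KC c).T}

theorem ext_off (ha : a ∈ Ac n univ) : (oe c).ext a ∈ Ac n (off c.G) :=
  img_univ c ▸ (oe c).ext_Ac ha

theorem D_em' (ha : a ∈ Ac n univ) : (KC c).tri.D (em c a) = em c (dd _ _ a) := by
  rw [em_apply, D_ext0 (ext_off ha), em_apply, (oe c).ext_dd ha]

theorem D_em (ha : a ∈ Ac n univ) : (KC c).D (em c a) = em c (dd _ _ a) :=
  (Dia.tri_D_apply _).symm.trans (D_em' ha)

theorem em_Kc (ha : a ∈ Ac n (c.j ⁻¹' W)) : em c a ∈ (ovr c.snc).Kc W :=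
  Dia.Ov.aug_Kc _ (Ac_mono (image_preimage_subset _ _) ((oe c).ext_Ac ha))

theorem em_gl (ha : a ∈ Ac n univ) (e : ℕ → ℂ) :
    (KC c).gl (fun _ => e) (em c a) = em c (gl _ _ e a) := by
  have : (oe c).ext (gl _ _ e a) = gl _ _ e ((oe c).ext a) :=
    (oe c).ext_eq (op_Sp (opr_vl _) ((oe c).ext_rg ha)) (by rw [pb_gl, (oe c).pb_ext ha])
  rw [em_apply, em_apply, this]
  exact Dia.Ov.gl_aug e _ _

theorem em_ne (a : SF n U) {I : Finset (Fin c.r)} (h : I ≠ ∅) : em c a I = 0 :=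
  Dia.Ov.e0_ne (B := ovr c.snc) _ h

theorem em_inj (ha : a ∈ Ac n univ) (h : em c a = 0) : a = 0 := by
  have := (arr_top c.snc).e0_inj (h.trans (map_zero _).symm)
  rw [← (oe c).pb_ext ha, this, map_zero]

theorem ex_ext {b : SF n c.Y.X} (hb : b ∈ Ac n (W \ ⋃ l, c.G l)) :
    ∃ a ∈ Ac n (c.j ⁻¹' W), (oe c).ext a = b := by
  rw [← img_pre] at hb
  refine ⟨pb (oe c).smo b, ?_, ?_⟩
  · exact c.inj.preimage_image (c.j ⁻¹' W) ▸ (oe c).pb_Ac (image_subset_range _ _) hb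
  · obtain ⟨K, -, h1, h2⟩ := hb
    exact (oe c).ext_pb (Sp_mono (h1.trans (image_subset_range _ _)) h2)

/-- **quasi-isomorphism over every open set: surjectivity** -/
theorem em_surj (hW : IsOpen W) (hu : u ∈ (ovr c.snc).Kc W) (hd : (KC c).D u = 0) :
    ∃ a ∈ Ac n (c.j ⁻¹' W), ∃ y ∈ (ovr c.snc).Kc W, dd _ _ a = 0 ∧ em c a - u = (KC c).D y := by
  obtain ⟨b, h1, y, h2, h3, h4⟩ := (arr_top c.snc).surj (arr_ok _) hW hu hd
  obtain ⟨a, h5, rfl⟩ := ex_ext h1
  refine ⟨a, h5, y, h2, ?_, h4⟩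
  rw [← (oe c).pb_ext h5, ← pb_dd, h3, map_zero]

/-- **quasi-isomorphism over every open set: injectivity** -/
theorem em_qinj (hW : IsOpen W) (ha : a ∈ Ac n (c.j ⁻¹' W)) (hu : u ∈ (ovr c.snc).Kc W)
    (e : em c a = (KC c).D u) : ∃ b ∈ Ac n (c.j ⁻¹' W), a = dd _ _ b := by
  obtain ⟨b, h1, h2⟩ := (arr_top c.snc).inj (arr_ok _) hW
    (img_pre c W ▸ (oe c).ext_Ac ha) hu e
  obtain ⟨b, h3, rfl⟩ := ex_ext h1
  exact ⟨b, h3, by rw [← (oe c).pb_ext ha, h2, pb_dd, (oe c).pb_ext h3]⟩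

variable (c)

theorem ch_em : Ch (dc n (univ : Set U)) (KC c).tri.D ((em c).domRestrict _) :=
  ch_dom fun _ => D_em'

theorem bij_em : Bijective (Coh.map _ (ch_em c)) := by
  have k : ∀ u, u ∈ (ovr c.snc).Kc univ := fun u => Dia.Ov.Kc_univ ▸ Submodule.mem_top (x := u)
  refine ⟨(inj_dom _).2 fun a ha u _ e => em_qinj isOpen_univ ha (k u)
    (e.trans (Dia.tri_D_apply u)), (surj_dom _).2 fun u e => ?_⟩
  obtain ⟨a, h1, y, -, h2, h3⟩ := em_surj isOpen_univ (k u) ((Dia.tri_D_apply u).symm.trans e)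
  exact ⟨a, h1, y, h2, h3.trans (Dia.tri_D_apply y).symm⟩

/-- **the model of the cohomology with compact supports** -/
def iso : Hc n (univ : Set U) ≃ₗ[ℂ] Coh (KC c).tri.D := LinearEquiv.ofBijective _ (bij_em c)

theorem iso_mk (z : Ac n (univ : Set U)) (hz : dc n univ z = 0) :
    iso c (Coh.mk z hz) = Coh.mk (em c z) ((ch_em c).cyc z hz) := rfl

/-- **the weights** -/
def wt (q : ℕ) : Module.End ℂ (Hc n (univ : Set U)) := (iso c).symm.conj ((KC_ok c).wt q)

theorem gr_wt : IsGr (wt c) := (KC_ok c).gr_wt.tr (iso c).symm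

theorem iso_wt (q : ℕ) (x : Hc n (univ : Set U)) :
    iso c (wt c q x) = (KC_ok c).wt q (iso c x) := (iso c).apply_symm_apply _

theorem grd_iso : Grd (wt c) (KC_ok c).wt 0 (iso c : _ →ₗ[ℂ] _) :=
  Grd.of_comm (KC_ok c).gr_wt fun q x => (iso_wt c q x).symm

include c in
theorem fin_Hc : FiniteDimensional ℂ (Hc n (univ : Set U)) := by
  have := (arr_ok c.snc).fin (arr_kah c.snc c.kah)
  rw [← Dia.tri_D] at this
  exact (iso c).symm.finiteDimensional

end one

variable {c : Cp n U} {c' : Cp m V}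

/-- a map which is induced by a graded map of the models is graded -/
theorem grd_of {s : ℤ} {φ : Hc m (univ : Set V) →ₗ[ℂ] Hc n (univ : Set U)}
    {ψ : Coh (KC c').tri.D →ₗ[ℂ] Coh (KC c).tri.D} (g : Grd (KC_ok c').wt (KC_ok c).wt s ψ)
    (e : ∀ x, iso c (φ x) = ψ (iso c' x)) : Grd (wt c') (wt c) s φ := fun q q' x h =>
  (iso c).injective (by rw [iso_wt, e, iso_wt, g q q' _ h, map_zero])

theorem low_of {s : ℤ} {φ : Hc m (univ : Set V) →ₗ[ℂ] Hc n (univ : Set U)}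
    {ψ : Coh (KC c').tri.D →ₗ[ℂ] Coh (KC c).tri.D} (g : Low (KC_ok c').wt (KC_ok c).wt s ψ)
    (e : ∀ x, iso c (φ x) = ψ (iso c' x)) : Low (wt c') (wt c) s φ := fun q q' x h =>
  (iso c).injective (by rw [iso_wt, e, iso_wt, g q q' _ h, map_zero])

/-- an operator which is induced by a morphism of the models is graded -/
theorem grd_mor {s : ℕ} {T : SF m V →ₗ[ℂ] SF n U} (h : Act univ univ T)
    {S : (KC c').T →ₗ[ℂ] (KC c).T} (k : Tri.Mor (KC c').tri (KC c).tri s S)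
    (e : ∀ a ∈ Ac m univ, em c (T a) = S (em c' a)) : Grd (wt c') (wt c) s h.map :=
  grd_of ((KC_ok c').grd_mor (KC_ok c) k) fun x => by
    obtain ⟨z, hz, rfl⟩ := Coh.ind x
    exact Coh.mk_congr (e z z.2) _

variable {f : U → V} {F : c.Y.X → c'.Y.X}

theorem act_pb {f : U → V} (hf : Smo n m f) (hp : IsProperMap f) : Act univ univ (pb hf) :=
  Act.pb hf (fun _ hK _ => hp.isCompact_preimage hK) (subset_univ _)

theorem ext_pb_ext (h : Ext c c' f F) (hp : IsProperMap f) {a : SF m V} (ha : a ∈ Ac m univ) :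
    (oe c).ext (pb (smo_of h.holf) a) = pb (smo_of h.hol) ((oe c').ext a) := by
  refine (oe c).ext_eq (fun y hy => pb_ZP _ ((oe c').ext_rg ha _ fun k => hy ?_)) ?_
  · rw [c'.emb.rng] at k
    rw [c.emb.rng]
    exact h.proper hp k
  · rw [← pb_comp, pb_eq _ (Pb1H.smo_comp (smo_of h.holf) (oe c').smo) h.eq,
      pb_comp (smo_of h.holf) (oe c').smo,
      (oe c').pb_ext ha]

theorem em_pb (h : Ext c c' f F) (hp : IsProperMap f) {J : Matrix (Fin c.r) (Fin c'.r) ℂ}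
    (k : Cmb c'.G c.G F J) {a : SF m V} (ha : a ∈ Ac m univ) :
    em c (pb (smo_of h.holf) a) = pul c.snc c'.snc F J (em c' a) := by
  rw [em_apply, em_apply, pul_ext0 h.hol k, ext_pb_ext h hp ha]

theorem grd_ext (h : Ext c c' f F) (hp : IsProperMap f) (hf : Smo n m f) :
    Grd (wt c') (wt c) 0 (act_pb hf hp).map := by
  choose φ hφ using h.into hp
  exact grd_mor _ (pul_mor h.hol (cmb_mx hφ) (mx_one φ)) fun _ => em_pb h hp (cmb_mx hφ)

theorem wt_ext {c₁ : Cp n U} {p : c₁.Y.X → c.Y.X} (h : Ext c₁ c (fun x => x) p) : wt c = wt c₁ := by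
  refine Grd.eq_of_id (gr_wt c) (gr_wt c₁) ?_
  have := grd_ext h isProperMap_id Pb1H.smo_id
  rwa [show (act_pb Pb1H.smo_id isProperMap_id).map = LinearMap.id from
    LinearMap.ext (Act.map_id _ fun u _ => pb_id u)] at this

/-- **independence of the compactification** -/
theorem wt_eq {c₁ : Cp n U} (h : Alg c c₁ fun x => x) : wt c = wt c₁ :=
  let ⟨_, _, _, h1, h2⟩ := h.ext
  (wt_ext h1).trans (wt_ext h2).symm

/-- **proper algebraic maps induce graded maps** -/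
theorem grd_pb (h : Alg c c' f) (hp : IsProperMap f) (hf : Smo n m f) :
    Grd (wt c') (wt c) 0 (act_pb hf hp).map :=
  let ⟨_, _, _, h1, h2⟩ := h.ext
  wt_ext h1 ▸ grd_ext h2 hp hf

/-- multiplication by a closed even form -/
theorem act_wd {W : Set U} {y : SF n U} (h : dd _ _ y = 0) (h' : pr _ _ y = y) : Act W W (wd y) :=
  ⟨fun _ => wd_Ac y, fun u _ => by rw [dd_wd, h, wd_zero, zero_add, h']⟩

theorem em_wd (y : SF n c.Y.X) {a : SF n U} (ha : a ∈ Ac n univ) :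
    em c (wd (pb (oe c).smo y) a) = (ovr c.snc).wd y (em c a) := by
  rw [em_apply, (oe c).ext_wd ha]
  exact (Dia.Ov.wd_aug y _ _).symm

/-- multiplication by a form on the compactification -/
theorem grd_wd0 {s : ℕ} {y : SF n c.Y.X} (hy : y ∈ Dg n c.Y.X s) (h1 : del _ _ y = 0)
    (h2 : dlb _ _ y = 0) (h : Act univ univ (wd (pb (oe c).smo y))) :
    Grd (wt c) (wt c) s h.map :=
  grd_mor h ((ovr c.snc).mor_wd hy h1 h2) fun _ => em_wd y

/-- **multiplication by the pull-back of a form on the compactification of the target** -/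
theorem grd_wd (k : Alg c c' f) {s : ℕ} {y : SF m c'.Y.X} (hy : y ∈ Dg m c'.Y.X s)
    (h1 : del _ _ y = 0) (h2 : dlb _ _ y = 0) (hf : Smo n m fun x => c'.j (f x))
    (h : Act univ univ (wd (pb hf y))) : Grd (wt c) (wt c) s h.map := by
  obtain ⟨c₁, p, F, a, b⟩ := k.ext
  have e : pb hf y = pb (oe c₁).smo (pb (smo_of b.hol) y) := by
    rw [← pb_comp]
    exact pb_eq _ _ (fun x => (b.eq x).symm) y
  rw [wt_ext a]
  revert h
  rw [e]
  exact grd_wd0 (pb_Dg _ hy) (by rw [← pb_del b.hol, h1, map_zero])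
    (by rw [← pb_dlb b.hol, h2, map_zero])

end Vale.Agent.P275AR
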