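import Vale.Agent.P275AR.One
import Vale.Agent.P275AR.Fine
import Vale.Agent.P275FM.Wt

/-!
# P275, arrangements: finite diagrams of compact complex manifolds and their total complexes
-/

open scoped Manifold ContDiff Topology Matrix
open Filter Set
open Vale.Agent.P272.K Vale.Agent.P281Z.Hg Vale.Agent.P275MC
open Vale.Agent.P281Z (HolM Mf)
open Vale.Agent.P280Z.Pu (smo_of)
open Vale.Agent.P275FM (Tri)

noncomputable section

namespace Vale.Agent.P275AR

/-- a finite family of compact complex manifolds, each placed in a column -/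
structure Fam : Type 1 where
  σ : Type
  [fin : Fintype σ]
  [dec : DecidableEq σ]
  n : σ → ℕ
  S : ∀ s, Mf (n s)
  col : σ → ℕ

attribute [instance] Fam.fin Fam.dec

namespace Fam

variable (A : Fam)

/-- the forms on one piece -/
abbrev F (s : A.σ) : Type := SF (A.n s) (A.S s).X

/-- the forms on the family -/
abbrev T : Type := ∀ s, A.F s

/-- the exterior derivative on every piece -/
def d : Module.End ℂ A.T := LinearMap.piMap fun _ => dd _ _

/-- the operator `∂` on every piece -/
def del : Module.End ℂ A.T := LinearMap.piMap fun _ => P275AR.del _ _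

/-- multiplication by `c s q` on the forms of degree `q` on the piece `s` -/
def gl (c : A.σ → ℕ → ℂ) : Module.End ℂ A.T := LinearMap.piMap fun s => P275AR.gl _ _ (c s)

/-- the parity of the form degree -/
def par : Module.End ℂ A.T := A.gl fun _ q => (-1) ^ q

/-- the projection on the form degree `q` -/
def dg (q : ℕ) : Module.End ℂ A.T := A.gl fun _ j => if j = q then 1 else 0

/-- the projection on the column `p` -/
def cl (p : ℕ) : Module.End ℂ A.T := A.gl fun s _ => if A.col s = p then 1 else 0

/-- the projection on the total degree `m` -/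
def td (m : ℕ) : Module.End ℂ A.T := A.gl fun s q => if q + A.col s = m then 1 else 0

/-- the projection on the total degrees `< m` -/
def π (m : ℕ) : Module.End ℂ A.T := A.gl fun s q => if q + A.col s < m then 1 else 0

/-- the projection on the holomorphic degree `k` -/
def ty (k : ℕ) : Module.End ℂ A.T := LinearMap.piMap fun _ => P275AR.ty _ _ k

/-- constants -/
def cst (k : A.σ → ℂ) : A.T := fun s => k s • one _ _

/-- the elements which live on the pieces in `Q` -/
def On (Q : Set A.σ) : Submodule ℂ A.T where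
  carrier := {u | ∀ s ∉ Q, u s = 0}
  add_mem' ha hb s hs := by rw [Pi.add_apply, ha s hs, hb s hs, add_zero]
  zero_mem' _ _ := rfl
  smul_mem' c _ ha s hs := by rw [Pi.smul_apply, ha s hs, smul_zero]

/-- all the pieces are Kaehler -/
def Kah : Prop := ∀ s, (A.S s).Kah

end Fam

/-- a system of holomorphic maps from pieces of `B` to pieces of `A` -/
structure Sys (B A : Fam) where
  R : B.σ → A.σ → Prop
  f : ∀ t s, R t s → (B.S t).X → (A.S s).X
  hol : ∀ t s h, HolM (B.n t) (A.n s) (f t s h)

namespace Sys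

variable {C B A : Fam} (M : Sys B A)

open Classical in
/-- the pull-back from the piece `s` to the piece `t` -/
def P (t : B.σ) (s : A.σ) : A.F s →ₗ[ℂ] B.F t :=
  if h : M.R t s then pb (smo_of (M.hol t s h)) else 0

/-- the operator with the coefficients `c` -/
def act (c : Matrix B.σ A.σ ℂ) : A.T →ₗ[ℂ] B.T :=
  LinearMap.pi fun t => ∑ s, c t s • (M.P t s ∘ₗ LinearMap.proj s)

/-- the coefficients vanish when there is no map -/
def Sup (c : Matrix B.σ A.σ ℂ) : Prop := ∀ t s, c t s ≠ 0 → M.R t s

/-- `M₃` contains the compositions -/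
def Cmp (M₁ : Sys C B) (M₂ : Sys B A) (M₃ : Sys C A) : Prop :=
  ∀ r t s (h₁ : M₁.R r t) (h₂ : M₂.R t s), ∃ h₃ : M₃.R r s,
    ∀ x, M₃.f r s h₃ x = M₂.f t s h₂ (M₁.f r t h₁ x)

/-- the maps of the system cover `g` -/
def Ov {Y' Y : Type} (p' : ∀ t, (B.S t).X → Y') (p : ∀ s, (A.S s).X → Y) (g : Y' → Y) : Prop :=
  ∀ t s h x, p s (M.f t s h x) = g (p' t x)

/-- all holomorphic maps which cover `g` (unique when the `p s` are injective) -/
def ov {Y' Y : Type} (p' : ∀ t, (B.S t).X → Y') (p : ∀ s, (A.S s).X → Y) (g : Y' → Y) :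
    Sys B A where
  R t s := ∃ f, HolM (B.n t) (A.n s) f ∧ ∀ x, p s (f x) = g (p' t x)
  f _ _ h := h.choose
  hol _ _ h := h.choose_spec.1

end Sys

/-- a family with a Cech type differential -/
structure Dia : Type 1 extends Fam where
  M : Sys toFam toFam
  c : Matrix σ σ ℂ

namespace Dia

variable (X : Dia)

/-- the axioms -/
structure OK : Prop where
  cmp : X.M.Cmp X.M X.M
  sup : X.M.Sup X.c
  cc : X.c * X.c = 0
  col : ∀ t s, X.c t s ≠ 0 → X.col t = X.col s + 1

/-- the Cech differential, with the sign which makes it anticommute with `d` -/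
def δ : Module.End ℂ X.T := X.M.act X.c ∘ₗ X.par

/-- the total differential -/
def D : Module.End ℂ X.T := X.d + X.δ

/-- the three differentials -/
def tri : Tri X.T := ⟨X.del, X.d - X.del, X.δ, X.dg⟩

/-- the diagram over a compact manifold -/
structure Ov {N : ℕ} (Y : Mf N) where
  p : ∀ s, (X.S s).X → Y.X
  hol : ∀ s, HolM (X.n s) N (p s)
  ov : X.M.Ov p p id

variable {X} {N : ℕ} {Y : Mf N} (B : X.Ov Y)

/-- the elements with support in `V` -/
def Ov.Kc (V : Set Y.X) : Submodule ℂ X.T := ⨅ s, (Ac (X.n s) (B.p s ⁻¹' V)).comap (.proj s)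

/-- multiplication by a smooth function on the base -/
def Ov.mu {ρ : Y.X → ℝ} (hρ : SmoothFn (n := N) ρ) : Module.End ℂ X.T :=
  LinearMap.piMap fun s => P275MC.mu (smoothFn_comp (smo_of (B.hol s)) hρ)

/-- the fine complex -/
def Ov.fine : Fine Y.X X.T where
  d := X.D
  π := X.π
  G x := ⨅ s, ⨅ z ∈ B.p s ⁻¹' {x}, (Nb z).comap (.proj s)
  R := {r | ∃ (ρ : Y.X → ℝ) (hρ : SmoothFn (n := N) ρ), r = B.mu hρ}

/-- at `x`, the fibres have at most one point and the complex of the constants on the pieces in `Q`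
which contain `x` is exact -/
structure Ov.Acy (Q : Set X.σ) (x : Y.X) : Prop where
  inj : ∀ s ∈ Q, ∀ z z', B.p s z = x → B.p s z' = x → z = z'
  ex : ∀ k : X.σ → ℂ, (∀ s ∉ Q, k s = 0) → (∀ t, x ∈ range (B.p t) → (X.c *ᵥ k) t = 0) →
    ∃ k' : X.σ → ℂ, (∀ s ∉ Q, k' s = 0) ∧ ∀ t, x ∈ range (B.p t) → (X.c *ᵥ k') t = k t

end Dia

end Vale.Agent.P275AR
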