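import Vale.Agent.P275AR.Pair
import Vale.Agent.P275PC.Chart

/-!
# P275, arrangements: maps of degree one
-/

open scoped Manifold ContDiff Topology
open Filter Set Function Topology
open Vale.Agent.P272.K Vale.Agent.P281Z.Hg Vale.Agent.P275MC Vale.Agent.P275FM Vale.Agent.P275PC

set_option linter.unusedSectionVars false

noncomputable section

namespace Vale.Agent.P275AR

variable {d : ℕ} {M N V U : Type} [TopologicalSpace M] [ChartedSpace (Cm d) M] [T2Space M]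
  [IsManifold 𝓘(ℂ, Cm d) ω M] [TopologicalSpace N] [ChartedSpace (Cm d) N] [T2Space N]
  [IsManifold 𝓘(ℂ, Cm d) ω N] [TopologicalSpace V] [ChartedSpace (Cm d) V] [T2Space V]
  [IsManifold 𝓘(ℂ, Cm d) ω V] [TopologicalSpace U] [ChartedSpace (Cm d) U] [T2Space U]
  [IsManifold 𝓘(ℂ, Cm d) ω U] {p : N → M} {i : V → M} {j : V → N} {O : Set M} {a : SF d M}

variable (d) in
/-- `p` is proper and an orientation preserving isomorphism over the image of `i` -/
structure Mdf (p : N → M) (i : V → M) (j : V → N) : Prop where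
  smo : Smo d d p
  prop : ∀ K, IsCompact K → IsCompact (p ⁻¹' K)
  oi : OE d i
  oj : OE d j
  ri : Ori d i
  rj : Ori d j
  eq : ∀ x, p (j x) = i x
  pre : p ⁻¹' range i ⊆ range j

theorem mu_self {ρ : M → ℝ} (hρ : SmoothFn (n := d) ρ) {K : Set M} (h : a ∈ Sp d K)
    (h1 : ∀ x ∈ K, ∀ᶠ y in 𝓝 x, ρ y = 1) : mu hρ a = a :=
  sub_eq_zero.1 (eq_zero_of_ZP fun x => by
    by_cases hx : x ∈ K
    · exact Nb_ZP (mu_Nb_one _ (h1 x hx) _)
    · exact Submodule.sub_mem _ (op_ZP (opr_vl _) (h x hx)) (h x hx))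

namespace Mdf

variable (h : Mdf d p i j)
include h

theorem pb_Ac {W : Set M} (ha : a ∈ Ac d W) : pb h.smo a ∈ Ac d (p ⁻¹' W) :=
  P275MC.pb_Ac _ (fun K hK _ => h.prop K hK) ha

theorem pb_pb (a : SF d M) : pb h.oj.smo (pb h.smo a) = pb h.oi.smo a := by
  rw [← pb_comp]
  exact pb_eq _ _ h.eq a

theorem pb_ext {u : SF d V} (hu : u ∈ Ac d univ) : pb h.smo (h.oi.ext u) = h.oj.ext u :=
  (h.oj.ext_eq (Sp_mono h.pre (pb_Sp _ (h.oi.ext_rg hu))) (by rw [h.pb_pb, h.oi.pb_ext hu])).symm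

theorem itc0 (ha : a ∈ Ac d (range i)) : itc d N (pb h.smo a) = itc d M a := by
  rw [← h.oi.itc_pb h.ri ha, ← h.oj.itc_pb h.rj (Ac_mono h.pre (h.pb_Ac ha)), h.pb_pb]

/-- **degree one** -/
theorem itc (hO : IsOpen O) (hc : O ⊆ closure (range i)) (ha : a ∈ Ac d O) :
    itc d N (pb h.smo a) = itc d M a := by
  rw [← itc_pj (Ac_mono (subset_univ _) ha), ← itc_pj (Ac_mono (subset_univ _) (h.pb_Ac ha)),
    ← pb_pj]
  have k := pj_Am ((d + d : ℕ) : ℤ) ha
  generalize pj d M _ a = b at k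
  choose e he W h1 h2 h3 h4 h5 using fun x : O => exists_cv (d := d) hO x.2
  rw [show O = ⋃ x, cv (e x) (W x) from Subset.antisymm (fun x hx => mem_iUnion.2 ⟨_, h4 ⟨x, hx⟩⟩)
    (iUnion_subset h5), Am_iUnion fun x => cv_open _ (h1 x)] at k
  refine Submodule.iSup_induction _
    (motive := fun b => P275MC.itc d N (pb h.smo b) = P275MC.itc d M b) k (fun x b hb => ?_)
    (by rw [map_zero, map_zero, map_zero]) fun u v hu hv => by rw [map_add, map_add, map_add, hu, hv]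
  obtain ⟨y, k1, k2⟩ := mem_closure_iff.1 (hc x.2) _ (cv_open _ (h1 x)) (h4 x)
  obtain ⟨ρ, k3, k4⟩ := ex_itc_one (d := d)
    (((cv_open _ (h1 x)).inter h.oi.emb.isOpen_range).mem_nhds ⟨k1, k2⟩)
  have k5 := sub_mem hb (Submodule.smul_mem _ (P275MC.itc d M b) (Am_mono _ inter_subset_left k3))
  obtain ⟨v, k6, k7⟩ := pcM (he x) (h1 x) (h2 x) (h3 x) k5.1
    ((Dg_big (by omega)).le (dd_Dg k5.2)) (by
      rw [← itc_chart (he x) (Ac_mono inter_subset_left k5.1), map_sub, map_smul, k4, smul_eq_mul,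
        mul_one, sub_self])
  conv_lhs => rw [eq_add_of_sub_eq k7.symm, map_add, map_add, pb_dd,
    itc_dd (Ac_mono (subset_univ _) (h.pb_Ac k6)), zero_add, map_smul, map_smul,
    h.itc0 (Ac_mono inter_subset_right k3.1), k4, smul_eq_mul, mul_one]

theorem Qc (hO : IsOpen O) (hc : O ⊆ closure (range i)) (ha : a ∈ Ac d O) (b : SF d M) :
    Qc d N (pb h.smo a) (pb h.smo b) = Qc d M a b := by
  rw [Qc_eq (Ac_mono (subset_univ _) ha), Qc_eq (Ac_mono (subset_univ _) (h.pb_Ac ha)), ← pb_dgl,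
    ← pb_wd, h.itc hO hc (wd_Ac _ ha)]

end Mdf

variable (d U) in
/-- the part of Poincare duality which is used here -/
def PD : Prop := ∀ a ∈ Ac d (univ : Set U), dd d U a = 0 →
  (∀ w, dd d U w = 0 → Qc d U a w = 0) → ∃ b ∈ Ac d (univ : Set U), a = dd d U b

/-- **the pull-back by a modification is injective** -/
theorem Mdf.inj (h : Mdf d p i j) (hO : IsOpen O) (hc : O ⊆ closure (range i)) {k : U → M}
    (hk : OE d k) (rk : Ori d k) (pd : PD d U) {u : SF d U} (hu : u ∈ Ac d (k ⁻¹' O))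
    (h0 : dd d U u = 0) {b : SF d N} (hb : b ∈ Ac d (p ⁻¹' range k))
    (e : pb h.smo (hk.ext u) = dd d N b) : ∃ v ∈ Ac d (univ : Set U), u = dd d U v := by
  refine pd u (Ac_mono (subset_univ _) hu) h0 fun w hw => ?_
  obtain ⟨K, k1, -, k3⟩ := id hu
  obtain ⟨L, l1, l2, l3⟩ := id hb
  obtain ⟨χ, c1, c2, -, -, -, c3⟩ := P275MC.ex_cut (d := d) isOpen_univ
    (k1.union (hk.cpt (l1.image h.smo.cont) (image_subset_iff.2 l2))) (subset_univ _)
  have c4 := mu_mem_Ac c1 c2 (subset_univ _) w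
  have hu' := Ac_mono (subset_univ _) hu
  rw [← mu_self c1 k3 fun x hx => c3 x (Or.inl hx), Qc_mu c1 hu', ← hk.pb_ext c4,
    ← hk.Qc_ext rk hu', ← h.Qc hO hc (Ac_mono (image_preimage_subset _ _) (hk.ext_Ac hu)), e,
    Qc_dd (Ac_mono (subset_univ _) hb), neg_eq_zero, ← pb_dd]
  refine Qc_zero l1 l3 fun x hx => pb_ZP _ ?_
  obtain ⟨y, hy⟩ := l2 hx
  rw [← hy, ← hk.pb_ZP_iff, pb_dd, hk.pb_ext c4]
  have := dd_Nb (mu_Nb_one c1 (c3 y (Or.inr ⟨x, hx, hy.symm⟩)) w)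
  rw [map_sub, hw, sub_zero] at this
  exact Nb_ZP this

end Vale.Agent.P275AR
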