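import Vale.Agent.P275AR.Opn
import Vale.Agent.P275MC.Pd
import Vale.Agent.P275FM.Dual

/-!
# P275, arrangements: duality on the level of forms
-/

open scoped Manifold ContDiff Topology
open Set Function Module
open Vale.Agent.P272.K Vale.Agent.P281Z.Hg Vale.Agent.P275MC Vale.Agent.P275FM
open Vale.Agent.P281Z (HolM Emb)
open Vale.Agent.P275RG

set_option linter.unusedSectionVars false

noncomputable section

namespace Vale.Agent.P275AR

section du

variable {d : ℕ} {U : Type} [TopologicalSpace U] [ChartedSpace (Cm d) U] [T2Space U]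
  [IsManifold 𝓘(ℂ, Cm d) ω U] {a w : SF d U}

variable (d U) in
/-- the reversal of forms -/
def rev : Module.End ℂ (SF d U) := gl d U fun q => (-1) ^ q.choose 2

theorem rev_rev (w : SF d U) : rev d U (rev d U w) = w := by
  rw [rev, gl_gl, gl_congr (c' := fun _ => 1) (fun q _ => by rw [← mul_pow]; simp), gl_const,
    one_smul]

theorem dd_gl (c : ℕ → ℂ) (h : dd d U w = 0) : dd d U (gl d U c w) = 0 := by
  have := gl_dd (fun q => c (q - 1)) w
  rw [h, map_zero] at this
  exact this.symm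

theorem Qc_rev (ha : a ∈ Ac d univ) (w : SF d U) : Qc d U a w = itc d U (wd (rev d U w) a) :=
  Qc_eq ha w

variable (d U) in
/-- the functional defined by a form with compact support -/
def qd : Ac d (univ : Set U) →ₗ[ℂ] Dual ℂ (SF d U) := (Qc d U).domRestrict _

variable (d U) in
/-- the differential of functionals -/
def dq : Module.End ℂ (Dual ℂ (SF d U)) := -(dd d U).dualMap

theorem dq_apply (φ : Dual ℂ (SF d U)) (b : SF d U) : dq d U φ b = -φ (dd d U b) := rfl

theorem dq_dq (φ : Dual ℂ (SF d U)) : dq d U (dq d U φ) = 0 :=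
  LinearMap.ext fun b => by rw [dq_apply, dq_apply, dd_dd, map_zero, neg_zero, neg_zero]; rfl

theorem qd_comm (a : Ac d (univ : Set U)) : dq d U (qd d U a) = qd d U (dc d univ a) :=
  LinearMap.ext fun b => (Qc_dd a.2 b).symm

variable [SecondCountableTopology U]

theorem pd_ok : PD d U := fun a ha h0 h => hc_zero.1 (Hc_ext (x := hc a ha h0) fun α => by
  obtain ⟨w, rfl⟩ := clT_surj (d := d) α
  rw [map_zero]
  refine (pd_clT w _ _).trans (.trans ?_ (h (rev d U w) (dd_gl _ w.2)))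
  exact ((Qc_rev ha _).trans (by rw [rev_rev])).symm)

/-- a closed form which is orthogonal to the closed forms with compact support is exact -/
theorem pd_ok' (h0 : dd d U w = 0) (h : ∀ a ∈ Ac d univ, dd d U a = 0 → Qc d U a w = 0) :
    ∃ v, w = dd d U v := by
  obtain ⟨v, e⟩ := (clT_eq_zero_iff ⟨rev d U w, dd_gl _ h0⟩).1
    ((pd d U).map_eq_zero_iff.1 (LinearMap.ext fun x => by
      obtain ⟨a, ha, h1, rfl⟩ := hc_ind x
      exact (pd_clT _ _ _).trans ((Qc_rev ha w).symm.trans (h a ha h1))))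
  exact ⟨_, ((rev_rev w).symm.trans (congrArg _ e.symm)).trans (gl_dd _ v)⟩

theorem qd_inj (z : Ac d (univ : Set U)) (y : Dual ℂ (SF d U)) (h0 : dc d univ z = 0)
    (h : qd d U z = dq d U y) : ∃ v, z = dc d univ v :=
  let ⟨b, hb, e⟩ := pd_ok z.1 z.2 (congrArg Subtype.val h0) fun w hw =>
    (LinearMap.congr_fun h w).trans (by rw [dq_apply, hw, map_zero, neg_zero])
  ⟨⟨b, hb⟩, Subtype.ext e⟩

theorem qd_surj [FiniteDimensional ℂ (Hc d (univ : Set U))] (φ : Dual ℂ (SF d U))
    (h : dq d U φ = 0) : ∃ z y, dc d univ z = 0 ∧ qd d U z - φ = dq d U y := by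
  obtain ⟨ψ, hψ⟩ := ex_fac (clT (d := d) (M := U)) (φ ∘ₗ rev d U ∘ₗ (Zf d U).subtype) fun w hw => by
    obtain ⟨v, e⟩ := (clT_eq_zero_iff w).1 hw
    refine (congrArg (fun t => φ (rev d U t)) e.symm).trans ((congrArg φ (gl_dd _ v)).trans ?_)
    exact neg_eq_zero.1 (LinearMap.congr_fun h _)
  obtain ⟨x, hx⟩ := (evalEquiv ℂ (Hc d (univ : Set U))).surjective (ψ ∘ₗ (pd d U).symm.toLinearMap)
  obtain ⟨a, ha, h0, rfl⟩ := hc_ind x
  obtain ⟨y, hy⟩ := fac_of_ker (f := dd d U) (φ := qd d U ⟨a, ha⟩ - φ) fun w hw => by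
    have k := LinearMap.congr_fun hx (pd d U (clT ⟨rev d U w, dd_gl _ hw⟩))
    rw [LinearMap.comp_apply, LinearEquiv.coe_coe, LinearEquiv.symm_apply_apply, hψ] at k
    refine sub_eq_zero.2 ((Qc_rev ha w).trans ((pd_clT ⟨rev d U w, dd_gl _ hw⟩ ⟨a, ha⟩
      (Subtype.ext h0)).symm.trans (k.trans (congrArg φ (rev_rev w)))))
  exact ⟨⟨a, ha⟩, -y, Subtype.ext h0, hy.trans (by rw [map_neg, dq, LinearMap.neg_apply, neg_neg])⟩

/-- **forms with compact support are quasi-isomorphic to functionals on all forms** -/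
theorem qd_bij [FiniteDimensional ℂ (Hc d (univ : Set U))]
    (c : Ch (dc d univ) (dq d U) (qd d U)) : Bijective (Coh.map _ c) :=
  ⟨(Coh.map_inj c).2 qd_inj, (Coh.map_surj c).2 qd_surj⟩

end du

variable {n : ℕ} {U V : Type} [TopologicalSpace U] [ChartedSpace (Cm n) U] [T2Space U]
  [IsManifold 𝓘(ℂ, Cm n) ω U] [TopologicalSpace V] [ChartedSpace (Cm n) V] [T2Space V]
  [IsManifold 𝓘(ℂ, Cm n) ω V] {c : Cp n U} {c' : Cp n V} {i : V → U} {S : Set U}

/-- **extension by zero along an open algebraic embedding is graded** -/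
theorem grd_opn (hi : Emb n n i S) (h : Alg c' c i) :
    Grd (wt c') (wt c) 0 (Act.ext (oe_of_emb hi) (subset_univ (i '' univ))).map :=
  have := c.sc
  grd_opn' pd_ok hi h

theorem grd_ext' (hi : Emb n n i S) (h : Alg c' c i) (ho : OE n i) (k : Act univ univ ho.ext) :
    Grd (wt c') (wt c) 0 k.map := grd_opn hi h

end Vale.Agent.P275AR
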