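import Vale.Agent.P275AR.Fine
import Mathlib.Topology.Compactification.OnePoint.Basic

/-!
# P275, arrangements: fine complexes with compact supports on locally compact spaces
-/

open Set Filter Topology

set_option linter.unusedSectionVars false

noncomputable section

namespace Vale.Agent.P275AR

namespace Fine

variable {X S : Type} [AddCommGroup S] [Module ℂ S] [TopologicalSpace X] (F : Fine X S)

/-- the elements with compact support in `V` -/
def Cs (V : Set X) : Submodule ℂ S where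
  carrier := {u | ∃ K, IsCompact K ∧ K ⊆ V ∧ ∀ x ∉ K, u ∈ F.G x}
  add_mem' := by
    rintro a b ⟨K, h1, h2, h3⟩ ⟨K', k1, k2, k3⟩
    exact ⟨K ∪ K', h1.union k1, union_subset h2 k2, fun x hx =>
      (F.G x).add_mem (h3 x fun h => hx (Or.inl h)) (k3 x fun h => hx (Or.inr h))⟩
  zero_mem' := ⟨∅, isCompact_empty, empty_subset _, fun x _ => (F.G x).zero_mem⟩
  smul_mem' := by
    rintro c a ⟨K, h1, h2, h3⟩
    exact ⟨K, h1, h2, fun x hx => (F.G x).smul_mem c (h3 x hx)⟩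

/-- the axioms on a space which need not be compact -/
structure OKc : Prop where
  dd : ∀ u, F.d (F.d u) = 0
  π0 : ∀ u, F.π 0 u = 0
  πd : ∀ m u, F.π (m + 1) (F.d u) = F.d (F.π m u)
  ππ : ∀ m u, F.π m (F.π m u) = F.π m u
  top : ∀ u, ∃ N, F.π N u = u
  opn : ∀ u x, u ∈ F.G x → ∀ᶠ y in 𝓝 x, u ∈ F.G y
  sep : ∀ u, (∀ x, u ∈ F.G x) → u = 0
  dG : ∀ x u, u ∈ F.G x → F.d u ∈ F.G x
  πG : ∀ m x u, u ∈ F.G x → F.π m u ∈ F.G x
  RG : ∀ ρ ∈ F.R, ∀ x u, u ∈ F.G x → ρ u ∈ F.G x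
  cut : ∀ K U : Set X, IsCompact K → IsOpen U → K ⊆ U → ∃ ρ ∈ F.R,
    ∀ u, (∀ x ∈ K, ρ u - u ∈ F.G x) ∧ ρ u ∈ F.Cs U

/-- the complex on the one point compactification -/
def pt : Fine (OnePoint X) S where
  d := F.d
  π := F.π
  G x := OnePoint.rec (F.Cs univ) F.G x
  R := F.R ∪ {r | 1 - r ∈ F.R}

variable {F} {P : Submodule ℂ S} {U V Z : Set X} {u : S}

theorem Cs_mono (h : U ⊆ V) : F.Cs U ≤ F.Cs V := fun _ ⟨K, h1, h2, h3⟩ => ⟨K, h1, h2.trans h, h3⟩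

theorem Cs_op {T : S → S} (h : ∀ x u, u ∈ F.G x → T u ∈ F.G x) (hu : u ∈ F.Cs V) : T u ∈ F.Cs V :=
  hu.imp fun _ k => ⟨k.1, k.2.1, fun x hx => h x u (k.2.2 x hx)⟩

theorem pt_op {T : S → S} (h : ∀ x u, u ∈ F.G x → T u ∈ F.G x) (x : OnePoint X) (u : S)
    (hu : u ∈ F.pt.G x) : T u ∈ F.pt.G x := by
  induction x with
  | infty => exact Cs_op h hu
  | coe x => exact h x u hu

theorem Sub.pt (h : F.Sub P) : F.pt.Sub P :=
  ⟨h.d, h.π, fun ρ hρ u hu => hρ.elim (fun k => h.R ρ k u hu) fun k => by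
    have := P.sub_mem hu (h.R _ k u hu)
    rwa [LinearMap.sub_apply, Module.End.one_apply, sub_sub_cancel] at this⟩

theorem OKc.sub_Cs (h : F.OKc) (V : Set X) : F.Sub (F.Cs V) :=
  ⟨fun _ => Cs_op h.dG, fun m _ => Cs_op (h.πG m), fun ρ hρ _ => Cs_op (h.RG ρ hρ)⟩

theorem OKc.Cs_eq (h : F.OKc) (V : Set X) : F.Cs V = F.pt.Van (OnePoint.some '' V)ᶜ := by
  ext u
  rw [mem_Van]
  refine ⟨fun ⟨K, h1, h2, h3⟩ x hx => ?_, fun k => ?_⟩
  · induction x with
    | infty => exact ⟨K, h1, subset_univ _, h3⟩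
    | coe x => exact h3 x fun a => hx ⟨x, h2 a, rfl⟩
  · obtain ⟨K, h1, -, h3⟩ := k OnePoint.infty OnePoint.infty_notMem_image_coe
    refine ⟨K ∩ {x | u ∈ F.G x}ᶜ, h1.inter_right
      (isOpen_iff_mem_nhds.2 fun x => h.opn u x).isClosed_compl, fun x hx => by_contra fun a =>
        hx.2 (k x fun ⟨y, b, e⟩ => a (OnePoint.coe_injective e ▸ b)), fun x hx => ?_⟩
    by_contra a
    exact hx ⟨by_contra fun b => a (h3 x b), a⟩

variable [T2Space X]

theorem OKc.cut' (h : F.OKc) {K L : Set (OnePoint X)} (hK : IsClosed K) (hL : IsClosed L)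
    (hd : Disjoint K L) (hi : OnePoint.infty ∉ K) : ∃ ρ ∈ F.R,
      ∀ u, (∀ x ∈ K, ρ u - u ∈ F.pt.G x) ∧ ∀ x ∈ L, ρ u ∈ F.pt.G x := by
  obtain ⟨ρ, h1, h2⟩ := h.cut (OnePoint.some ⁻¹' K) (OnePoint.some ⁻¹' L)ᶜ
    ((OnePoint.isClosed_iff_of_notMem hi).1 hK).2
    (hL.preimage OnePoint.continuous_coe).isOpen_compl fun x hx a => hd.le_bot ⟨hx, a⟩
  refine ⟨ρ, h1, fun u => ⟨fun x hx => ?_, fun x hx => ?_⟩⟩
  · induction x with
    | infty => exact absurd hx hi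
    | coe x => exact (h2 u).1 x hx
  · induction x with
    | infty => exact Cs_mono (subset_univ _) (h2 u).2
    | coe x =>
      obtain ⟨K', -, a, b⟩ := (h2 u).2
      exact b x fun c => a c hx

theorem OKc.pt (h : F.OKc) : F.pt.OK where
  dd := h.dd
  π0 := h.π0
  πd := h.πd
  ππ := h.ππ
  top := h.top
  opn u x hx := by
    induction x with
    | infty =>
      obtain ⟨K, h1, -, h3⟩ := id hx
      refine mem_of_superset ((OnePoint.isOpen_compl_image_coe.2 ⟨h1.isClosed, h1⟩).mem_nhds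
        OnePoint.infty_notMem_image_coe) fun y hy => ?_
      induction y with
      | infty => exact hx
      | coe y => exact h3 y fun a => hy ⟨y, a, rfl⟩
    | coe x =>
      rw [OnePoint.nhds_coe_eq, eventually_map]
      exact h.opn u x hx
  sep u hu := h.sep u fun x => hu x
  dG := pt_op h.dG
  πG m := pt_op (h.πG m)
  RG ρ hρ := pt_op fun x u hu => hρ.elim (fun k => h.RG ρ k x u hu) fun k => by
    have := (F.G x).sub_mem hu (h.RG _ k x u hu)
    rwa [LinearMap.sub_apply, Module.End.one_apply, sub_sub_cancel] at this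
  cut K L hK hL hd := by
    by_cases hi : OnePoint.infty ∈ K
    · obtain ⟨ρ, h1, h2⟩ := h.cut' hL hK hd.symm fun a => hd.le_bot ⟨hi, a⟩
      refine ⟨1 - ρ, Or.inr (by rwa [mem_ofPred, sub_sub_cancel]), fun u =>
        ⟨fun x hx => ?_, fun x hx => ?_⟩⟩
      · rw [LinearMap.sub_apply, Module.End.one_apply, sub_sub_cancel_left]
        exact Submodule.neg_mem _ ((h2 u).2 x hx)
      · rw [LinearMap.sub_apply, Module.End.one_apply, ← neg_sub]
        exact Submodule.neg_mem _ ((h2 u).1 x hx)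
    · obtain ⟨ρ, h1, h2⟩ := h.cut' hK hL hd hi
      exact ⟨ρ, Or.inl h1, h2⟩

theorem OKc.Cs_diff (h : F.OKc) (V Z : Set X) :
    F.Cs (V \ Z) = F.Cs V ⊓ F.pt.Van (OnePoint.some '' Zᶜ)ᶜ := by
  rw [h.Cs_eq, h.Cs_eq, ← Van_union, ← compl_inter, ← image_inter OnePoint.coe_injective, sdiff_eq]

variable [LocallyCompactSpace X] (h : F.OKc) (hP : F.Sub P) (hV : IsOpen V) (hZ : IsClosed Z)
  (hE : ∀ x ∈ V, x ∈ Z → F.Ex P x)
include h hP hV hZ hE

theorem OKc.ex (x : OnePoint X) (hx : x ∈ (OnePoint.some '' Zᶜ)ᶜ) :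
    F.pt.Ex (P ⊓ F.pt.Van (OnePoint.some '' V)ᶜ) x :=
  h.pt.ex_Van hP.pt (OnePoint.isOpen_image_coe.2 hV).isClosed_compl fun k => by
    obtain ⟨y, hy, rfl⟩ := not_not.1 k
    exact hE y hy (by_contra fun a => hx ⟨y, a, rfl⟩)

/-- cycles can be moved away from the closed set where the complex is locally exact -/
theorem OKc.qsurj (hu : u ∈ P ⊓ F.Cs V) (hd : F.d u = 0) :
    ∃ a ∈ P ⊓ F.Cs (V \ Z), F.d a = 0 ∧ ∃ c ∈ P ⊓ F.Cs V, u = a + F.d c := by
  rw [h.Cs_diff, ← inf_assoc]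
  rw [h.Cs_eq] at hu ⊢
  exact h.pt.qsurj (hP.pt.inf (h.pt.sub_Van _))
    (OnePoint.isOpen_image_coe.2 hZ.isOpen_compl).isClosed_compl (h.ex hP hV hZ hE) hu hd

/-- primitives can be moved away from the closed set where the complex is locally exact -/
theorem OKc.qinj (hu : u ∈ P ⊓ F.Cs V) (hd : F.d u ∈ F.Cs (V \ Z)) :
    ∃ c ∈ P ⊓ F.Cs (V \ Z), F.d c = F.d u := by
  rw [h.Cs_diff] at hd
  rw [h.Cs_diff, ← inf_assoc]
  rw [h.Cs_eq] at hu ⊢
  exact h.pt.qinj (hP.pt.inf (h.pt.sub_Van _))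
    (OnePoint.isOpen_image_coe.2 hZ.isOpen_compl).isClosed_compl (h.ex hP hV hZ hE) hu hd.2

end Fine

end Vale.Agent.P275AR
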