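import Vale.Agent.P275AR.Opn
import Vale.Agent.P275B.Flat

/-!
# P275, arrangements: locally constant functions
-/

open scoped Manifold ContDiff Topology
open Filter Set Function
open Vale.Agent.P272.K Vale.Agent.P281Z.Hg Vale.Agent.P275MC Vale.Agent.P275FM
open Vale.Agent.P281Z (HolM Mf holM_const snc_thin_off)
open Vale.Agent.P275RG Vale.Agent.P275KU
open Vale.Agent.P275B (Mn Vr Cv Fl)

set_option linter.unusedSectionVars false

noncomputable section

namespace Vale.Agent.P275AR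

/-- a finite set as a manifold -/
def pts (ι : Type) [Finite ι] : Mf 0 :=
  letI : TopologicalSpace ι := ⊥
  haveI : DiscreteTopology ι := ⟨rfl⟩
  letI : ChartedSpace (Cm 0) ι := .ofDiscreteTopology
  { X := ι, mf := IsManifold.of_discreteTopology _ }

open scoped ComplexOrder in
theorem kah0 (Y : Mf 0) : Y.Kah :=
  ⟨fun _ _ => 1, ⟨fun _ _ _ i => i.elim0, fun _ _ _ => Matrix.PosDef.one,
    fun _ _ _ _ _ => Subsingleton.elim _ _⟩, fun _ _ _ i => i.elim0⟩

variable {n m : ℕ} {U V : Type} [TopologicalSpace U] [ChartedSpace (Cm n) U] [T2Space U]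
  [IsManifold 𝓘(ℂ, Cm n) ω U] [TopologicalSpace V] [ChartedSpace (Cm m) V]
  [IsManifold 𝓘(ℂ, Cm m) ω V] {p : U → ℂ}

theorem hol_lc {k : U → V} (h : IsLocallyConstant k) : HolM n m k := fun x =>
  ((holM_const (k x)).at x).cng ((h.eventually_eq x).mono fun _ => Eq.symm)

theorem smC_lc (h : IsLocallyConstant p) : SmC n p := fun _ x he =>
  (contDiffAt_const (c := p x)).congr_of_eventuallyEq (P281Z.at_ev he (h.eventually_eq x))

theorem dd_fn_lc (h : IsLocallyConstant p) (hp : SmC n p) : dd n U (fn hp) = 0 :=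
  eq_zero_of_ZP fun x => Nb_ZP (by
    have k : fn hp - fn (SmC.const (p x)) ∈ Nb x := (h.eventually_eq x).mono fun y hy => by
      rw [← fn_sub]
      exact fn_ZP _ (sub_eq_zero.2 hy)
    have := dd_Nb k
    rwa [map_sub, dd_fn_const, sub_zero] at this)

/-- locally constant maps extend to the compactification -/
theorem ex_lc (c : Cp n U) {α : Type*} {k : U → α} (h : IsLocallyConstant k) :
    ∃ K : c.Y.X → α, IsLocallyConstant K ∧ ∀ x, K (c.j x) = k x := by
  choose O h0 h1 _ h2 using fun y => (snc_thin_off c.snc).loc_conn y univ_mem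
  have h3 : ∀ y, IsPreconnected (c.j ⁻¹' O y) := fun y => by
    rw [← c.opn.isInducing.isPreconnected_image, image_preimage_eq_inter_range, c.emb.rng]
    simpa only [sdiff_compl] using h2 y
  choose s hs using fun y => c.dense.exists_mem_open (h0 y) ⟨y, h1 y⟩
  refine ⟨fun y => k (s y), (IsLocallyConstant.iff_eventually_eq _).2 fun y =>
    mem_of_superset ((h0 y).mem_nhds (h1 y)) fun z hz => ?_,
    fun x => h.apply_eq_of_isPreconnected (h3 _) (hs _) (h1 _)⟩
  obtain ⟨x, hx⟩ := c.dense.exists_mem_open ((h0 y).inter (h0 z)) ⟨z, hz, h1 z⟩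
  exact (h.apply_eq_of_isPreconnected (h3 z) (hs z) hx.2).trans
    (h.apply_eq_of_isPreconnected (h3 y) hx.1 (hs y))

theorem fin_lc (c : Cp n U) {α : Type*} {k : U → α} (h : IsLocallyConstant k) :
    (range k).Finite :=
  let ⟨_, h1, h2⟩ := ex_lc c h
  h1.range_finite.subset (range_subset_iff.2 fun x => ⟨_, h2 x⟩)

/-- locally constant maps to a compact manifold are algebraic -/
theorem alg_lc (c : Cp n U) {Y : Mf m} (hY : Y.Kah) {k : U → Y.X} (h : IsLocallyConstant k) :
    Alg c (.self Y hY) k :=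
  let ⟨K, h1, h2⟩ := ex_lc c h
  Ext.alg (F := K) ⟨hol_lc h1, h2⟩

/-- **locally constant functions act by graded maps** -/
theorem grd_lc (c : Cp n U) (h : IsLocallyConstant p) (hp : SmC n p)
    (k : Act univ univ (wd (fn hp))) : Grd (wt c) (wt c) 0 k.map := by
  obtain ⟨K, h1, h2⟩ := ex_lc c h
  have e : fn hp = pb (oe c).smo (fn (smC_lc h1)) := by
    rw [pb_fn]
    exact fn_congr _ _ fun x => (h2 x).symm
  revert k
  rw [e]
  exact grd_fn (fn_Dg _) (dd_fn_lc h1 _)

/-- a locally constant function on a flat bundle comes from a finite set -/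
theorem lc_data {b d D : ℕ} {B : Mn b} {c : Cv B} {M : Vr d} (F : Fl c M D)
    (hc : ∀ i, IsPreconnected (c.V i)) {p : F.T.X → ℂ} (h : IsLocallyConstant p) (hp : SmC D p) :
    ∃ (Y : Mf 0) (hY : Y.Kah) (k₀ : c.ι → M.X → Y.X) (k : F.T.X → Y.X) (y : SF 0 Y.X)
      (hk : Smo D 0 k), (∀ i, Alg M.cp (.self Y hY) (k₀ i)) ∧
      (∀ i x, F.q x ∈ c.V i → k x = k₀ i (F.φ i x)) ∧ y ∈ Dg 0 Y.X (0 : ℕ) ∧ del 0 Y.X y = 0 ∧
      dlb 0 Y.X y = 0 ∧ pb hk y = fn hp := by
  classical
  let P : c.ι → M.X → ℂ := fun i z => if e : (c.V i).Nonempty then p (F.ψ i (e.some, z)) else 0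
  have h1 : ∀ i, IsLocallyConstant (P i) := fun i => by
    by_cases e : (c.V i).Nonempty
    · simp only [P, dif_pos e]
      exact h.comp_continuous (continuous_iff_continuousAt.2 fun z =>
        (F.hψ i (e.some, z) e.some_mem).cont.comp (f := fun z => (e.some, z)) (by fun_prop))
    · simp only [P, dif_neg e]
      exact .const 0
  have h2 : ∀ i x, F.q x ∈ c.V i → p x = P i (F.φ i x) := fun i x hx => by
    have e : (c.V i).Nonempty := ⟨_, hx⟩
    simp only [P, dif_pos e]
    conv_lhs => rw [← F.ψφ i x hx]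
    exact h.apply_eq_of_isPreconnected ((hc i).image (fun t => F.ψ i (t, F.φ i x)) fun t ht =>
      ((F.hψ i (t, F.φ i x) ht).cont.comp (f := fun t => (t, F.φ i x))
        (by fun_prop)).continuousWithinAt) ⟨_, hx, rfl⟩ ⟨_, e.some_mem, rfl⟩
  have : Finite (⋃ i, range (P i)) := finite_iUnion fun i => fin_lc M.cp (h1 i)
  let Y := pts (⋃ i, range (P i))
  let k : F.T.X → Y.X := fun x => ⟨p x, let ⟨i, hi⟩ := c.cov (F.q x)
    mem_iUnion.2 ⟨i, _, (h2 i x hi).symm⟩⟩
  have h3 : IsLocallyConstant k := .desc k Subtype.val h Subtype.val_injective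
  have h4 : IsLocallyConstant (X := Y.X) Subtype.val :=
    have : DiscreteTopology Y.X := ⟨rfl⟩
    .of_discrete _
  have h5 := del_of_ty (ty0_of_Dg (fn_Dg (smC_lc (n := 0) h4))) (dd_fn_lc h4 _)
  exact ⟨Y, kah0 Y, fun i z => ⟨P i z, mem_iUnion.2 ⟨i, z, rfl⟩⟩, k, fn (smC_lc h4),
    smo_of_hol (hol_lc h3), fun i => alg_lc _ _ (.desc _ Subtype.val (h1 i) Subtype.val_injective),
    fun i x hx => Subtype.ext (h2 i x hx), fn_Dg _, h5.1, h5.2, pb_fn _ _⟩

end Vale.Agent.P275AR
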