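import Vale.Agent.P275MC.Bas
import Vale.Agent.P280Z.Co.Pu
import Vale.Agent.P281Z.Hg.Po1
import Vale.Agent.P272.K.INT.Part

/-!
# P275, arrangements: operators on the forms of one manifold, germs, the local Poincare lemma
-/

open scoped Manifold ContDiff Topology Matrix
open Filter Set Metric
open Vale.Agent.P272.K Vale.Agent.P272.K.INT Vale.Agent.P299.IX Vale.Agent.P299.IX.Fock
  Vale.Agent.P281Z.Hg Vale.Agent.P281Z.Hg.G1H Vale.Agent.P281Z.Hg.G2H Vale.Agent.P275MC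
open Vale.Agent.P281Z (HolM)
open Vale.Agent.P281Z.Hg.Pb1H (ca)
open Vale.Agent.P280Z.Pu (smo_of ex_pm pb_pm)

noncomputable section

namespace Vale.Agent.P275AR

variable {d : ℕ} {M : Type} [TopologicalSpace M] [ChartedSpace (Cm d) M]

variable (d M) in
/-- multiplication by `c q` on the forms of degree `q` -/
def gl (c : ℕ → ℂ) : Module.End ℂ (SF d M) := opr _ (cov_dgl c)

/-- the forms which vanish near `x` -/
def Nb (x : M) : Submodule ℂ (SF d M) where
  carrier := {u | ∀ᶠ y in 𝓝 x, u ∈ ZP y}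
  add_mem' ha hb := (ha.and hb).mono fun y h => (ZP y).add_mem h.1 h.2
  zero_mem' := Eventually.of_forall fun y => (ZP y).zero_mem
  smul_mem' c _ ha := ha.mono fun y h => (ZP y).smul_mem c h

variable {e : Chart d M} {x : M} {u : SF d M}

theorem mem_Nb : u ∈ Nb x ↔ ∀ᶠ y in 𝓝 x, u ∈ ZP y := Iff.rfl

theorem Nb_ev (h : u ∈ Nb x) : ∀ᶠ y in 𝓝 x, u ∈ Nb y := eventually_eventually_nhds.2 h

theorem Nb_ZP (h : u ∈ Nb x) : u ∈ ZP x := (mem_Nb.1 h).self_of_nhds

theorem isOpen_Nb (u : SF d M) : IsOpen {x | u ∈ Nb x} := isOpen_iff_mem_nhds.2 fun _ => Nb_ev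

theorem op_Nb {F : Rw d M (Fm d)} {T : SF d M → SF d M} (hT : IsOp F T) (h : u ∈ Nb x) :
    T u ∈ Nb x := Eventually.mono h fun _ => op_ZP hT

theorem Ac_iff [T2Space M] [CompactSpace M] {V : Set M} : u ∈ Ac d V ↔ ∀ x ∉ V, u ∈ Nb x :=
  ⟨fun ⟨_, h1, h2, h3⟩ _ hx => mem_of_superset
    (h1.isClosed.isOpen_compl.mem_nhds fun h => hx (h2 h)) h3,
    fun h => ⟨{x | u ∈ Nb x}ᶜ, (isOpen_Nb u).isClosed_compl.isCompact,
      fun x hx => by_contra fun k => hx (h x k), fun _ hx => Nb_ZP (not_not.1 hx)⟩⟩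

theorem gl_vl (c : ℕ → ℂ) (u : SF d M) (h : At e x) :
    vl (gl d M c u) e (e x) = dgl c *ᵥ vl u e (e x) := opr_vl (cov_dgl c) u e x h

theorem gl_Nb (c : ℕ → ℂ) (h : u ∈ Nb x) : gl d M c u ∈ Nb x := op_Nb (opr_vl _) h

theorem gl_gl (c c' : ℕ → ℂ) (u : SF d M) :
    gl d M c (gl d M c' u) = gl d M (fun q => c q * c' q) u := ext' fun e x he => by
  rw [gl_vl _ _ he, gl_vl _ _ he, gl_vl _ _ he, Matrix.mulVec_mulVec, dgl_mul]

theorem gl_congr {c c' : ℕ → ℂ} (h : ∀ q ≤ d + d, c q = c' q) (u : SF d M) :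
    gl d M c u = gl d M c' u := ext' fun e x he => funext fun I => by
  rw [gl_vl _ _ he, gl_vl _ _ he, dgl_mulVec, dgl_mulVec,
    h _ ((Finset.card_le_univ I).trans_eq (Fintype.card_fin _))]

theorem gl_const (a : ℂ) (u : SF d M) : gl d M (fun _ => a) u = a • u :=
  ext' fun e x he => funext fun I => by rw [gl_vl _ _ he, dgl_mulVec, vl_smul]; rfl

theorem gl_sum {ι : Type*} (s : Finset ι) (c : ι → ℕ → ℂ) (u : SF d M) :
    ∑ i ∈ s, gl d M (c i) u = gl d M (fun q => ∑ i ∈ s, c i q) u :=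
  ext' fun e x he => funext fun I => by
    rw [vl_sum, Finset.sum_apply, gl_vl _ _ he, dgl_mulVec, Finset.sum_mul]
    exact Finset.sum_congr rfl fun i _ => by rw [gl_vl _ _ he, dgl_mulVec]

theorem gl_one (c : ℕ → ℂ) : gl d M c (one d M) = c 0 • one d M := ext' fun e x he => by
  rw [gl_vl _ _ he, vl_smul, one_vl e x he, dgl_ev, Finset.card_empty]

theorem pr_eq : pr d M = gl d M fun q => (-1) ^ q := rfl

theorem pj_eq' (k : ℕ) : pj d M k = gl d M fun q => if q = k then 1 else 0 := by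
  simp only [← Nat.cast_inj (R := ℤ)]
  rfl

theorem one_Nb {a : ℂ} (h : a • one d M ∈ Nb x) : a = 0 := by
  have h1 := congrFun (Nb_ZP h _ (ca x)) ∅
  rw [vl_smul, one_vl _ x (ca x)] at h1
  simpa [ev] using h1

theorem mu_Nb {ρ : M → ℝ} (hρ : SmoothFn (n := d) ρ) (h : u ∈ Nb x) : mu hρ u ∈ Nb x :=
  op_Nb (opr_vl _) h

theorem mu_Nb_zero {ρ : M → ℝ} (hρ : SmoothFn (n := d) ρ) (h : ∀ᶠ y in 𝓝 x, ρ y = 0)
    (u : SF d M) : mu hρ u ∈ Nb x := h.mono fun _ => mu_ZP hρ u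

theorem mu_Nb_one {ρ : M → ℝ} (hρ : SmoothFn (n := d) ρ) (h : ∀ᶠ y in 𝓝 x, ρ y = 1)
    (u : SF d M) : mu hρ u - u ∈ Nb x := h.mono fun y hy e he => by
  rw [vl_sub, mu_vl hρ u he, hy, Complex.ofReal_one, one_smul, sub_self]

variable [IsManifold 𝓘(ℂ, Cm d) ω M]

variable (d M) in
/-- the projection on the holomorphic degree `k` -/
def ty (k : ℕ) : Module.End ℂ (SF d M) := (ex_pm k).choose

theorem ty_vl (k : ℕ) : IsOp (fun _ _ => pm d k) (ty d M k) := (ex_pm k).choose_spec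

variable (d M) in
/-- the operator `∂` -/
def del : Module.End ℂ (SF d M) :=
  ∑ k ∈ Finset.range (d + 1), ty d M (k + 1) * dd d M * ty d M k

theorem dd_Nb (h : u ∈ Nb x) : dd d M u ∈ Nb x := (Nb_ev h).mono fun _ => dd_ZP

theorem gl_dd (c : ℕ → ℂ) (u : SF d M) :
    gl d M c (dd d M u) = dd d M (gl d M (fun q => c (q + 1)) u) := ext' fun e x he => by
  rw [gl_vl _ _ he, dd_vl _ he, dd_vl _ he, dg_dT ka (dgl_eps c) (dif u he)]
  exact ka.congr (ev_at he (Eventually.of_forall fun y hy => (gl_vl _ u hy).symm))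

theorem gl_ty (c : ℕ → ℂ) (k : ℕ) (u : SF d M) :
    gl d M c (ty d M k u) = ty d M k (gl d M c u) := ext' fun e x he => by
  rw [gl_vl _ _ he, ty_vl k _ e x he, ty_vl k _ e x he, gl_vl _ _ he, Matrix.mulVec_mulVec,
    Matrix.mulVec_mulVec, dgl, pm, Matrix.diagonal_mul_diagonal, Matrix.diagonal_mul_diagonal]
  simp only [mul_comm]

theorem ty_big {k : ℕ} (h : d < k) (u : SF d M) : ty d M k u = 0 := ext' fun e x he => by
  rw [ty_vl k _ e x he, f1b.pm_zero d k h, Matrix.zero_mulVec, vl_zero]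

theorem del_eq {N : ℕ} (h : d < N) (u : SF d M) :
    del d M u = ∑ k ∈ Finset.range N, ty d M (k + 1) (dd d M (ty d M k u)) := by
  rw [del, LinearMap.sum_apply]
  refine Finset.sum_subset (Finset.range_subset_range.2 h) fun k _ hk => ?_
  rw [Module.End.mul_apply, Module.End.mul_apply,
    ty_big (k := k) (by simpa [Nat.succ_le_iff] using hk), map_zero, map_zero]

theorem gl_del (c : ℕ → ℂ) (u : SF d M) :
    gl d M c (del d M u) = del d M (gl d M (fun q => c (q + 1)) u) := by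
  rw [del_eq d.lt_succ_self, del_eq d.lt_succ_self, map_sum]
  simp only [gl_ty, gl_dd]

variable {d' : ℕ} {M' : Type} [TopologicalSpace M'] [ChartedSpace (Cm d') M']
  [IsManifold 𝓘(ℂ, Cm d') ω M'] {f : M → M'} {a : SF d' M'}

theorem pb_gl (hf : Smo d d' f) (c : ℕ → ℂ) (a : SF d' M') :
    pb hf (gl d' M' c a) = gl d M c (pb hf a) := pb_dgl hf c a

theorem pb_Nb (hf : Smo d d' f) (h : a ∈ Nb (f x)) : pb hf a ∈ Nb x :=
  (hf.cont.continuousAt.eventually h).mono fun _ => pb_ZP hf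

theorem pb_ty (hf : HolM d d' f) (k : ℕ) (a : SF d' M') :
    pb (smo_of hf) (ty d' M' k a) = ty d M k (pb (smo_of hf) a) :=
  pb_pm hf (pb_vl _) (ty_vl k) (ty_vl k) a

theorem pb_del (hf : HolM d d' f) (a : SF d' M') :
    pb (smo_of hf) (del d' M' a) = del d M (pb (smo_of hf) a) := by
  rw [del_eq (N := d + d' + 1) (by omega), del_eq (N := d + d' + 1) (by omega), map_sum]
  simp only [pb_ty hf, pb_dd]

theorem pb_eq {g : M → M'} (hf : Smo d d' f) (hg : Smo d d' g) (h : ∀ x, f x = g x)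
    (a : SF d' M') : pb hf a = pb hg a := by
  obtain rfl : f = g := funext h
  rfl

theorem ex_cut [T2Space M] [CompactSpace M] {K L : Set M} (hK : IsClosed K) (hL : IsClosed L)
    (h : Disjoint K L) : ∃ ρ : M → ℝ, SmoothFn (n := d) ρ ∧ (∀ x ∈ K, ∀ᶠ y in 𝓝 x, ρ y = 1) ∧
      ∀ x ∈ L, ∀ᶠ y in 𝓝 x, ρ y = 0 := by
  have := isManifold_real d M
  obtain ⟨f, h0, h1, -⟩ := exists_contMDiffMap_zero_one_nhds_of_isClosed (n := ⊤) 𝓘(ℝ, Cm d) hL hK
    h.symm
  exact ⟨f, smoothFn_of_contMDiff f.contMDiff, fun x hx => h1.filter_mono (nhds_le_nhdsSet hx),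
    fun x hx => h0.filter_mono (nhds_le_nhdsSet hx)⟩

/-- **the local Poincare lemma** -/
theorem poincare [T2Space M] (h : dd d M u ∈ Nb x) :
    ∃ (w : SF d M) (a : ℂ), dd d M w - u + a • one d M ∈ Nb x := by
  have he := ca (d := d) x
  set e := chartAt (Cm d) x
  have h1 : ∀ᶠ z in 𝓝 (e x), z ∈ e.target ∧ dT (vl u e) z = 0 := by
    refine Eventually.and (e.open_target.mem_nhds (e.map_source he.2)) (ev_at he ?_)
    filter_upwards [h] with y hy hy'
    rw [← dd_vl u hy']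
    exact hy e hy'
  obtain ⟨r, hr, h2⟩ := Metric.eventually_nhds_iff_ball.1 h1
  let χ : ContDiffBump (e x) := ⟨r / 4, r / 2, by positivity, by linarith⟩
  have hs : closedBall (e x) (r / 2) ⊆ e.target := fun z hz =>
    (h2 z (closedBall_subset_ball (by linarith) hz)).1
  have hχ : ContDiff ℝ ∞ fun z => (χ z : ℂ) := Complex.ofRealCLM.contDiff.comp χ.contDiff
  have h0 : ∀ z, z ∉ closedBall (e x) (r / 2) → (χ z : ℂ) = 0 := fun z hz => by
    rw [χ.zero_of_le_dist (le_of_lt (not_le.1 hz)), Complex.ofReal_zero]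
  have hone : ∀ z ∈ ball (e x) (r / 4), (χ z : ℂ) = 1 := fun z hz => by
    rw [χ.one_of_mem_closedBall (ball_subset_closedBall hz), Complex.ofReal_one]
  have hv : ContDiff ℝ ∞ fun z => (χ z : ℂ) • vl u e z := by
    refine contDiff_iff_contDiffAt.2 fun z => ?_
    by_cases hz : z ∈ closedBall (e x) (r / 2)
    · have h1 := (vl_isF u).sm e _ (at_tg he.1 (hs hz))
      rw [e.right_inv (hs hz)] at h1
      exact hχ.contDiffAt.smul h1
    · refine (contDiffAt_const (c := (0 : Fo d))).congr_of_eventuallyEq ?_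
      filter_upwards [isClosed_closedBall.isOpen_compl.mem_nhds hz] with y hy
      rw [h0 y hy, zero_smul]
  set v := fun z => (χ z : ℂ) • vl u e z
  have hc : ContDiff ℝ ∞ (Po1.cn v (e x)) := Po1.cn_cd hv contDiff_const contDiff_id
  have hvb : ∀ z ∈ ball (e x) (r / 4), v z = vl u e z := fun z hz => by
    simp only [v, hone z hz, one_smul]
  have hd0 : ∀ z ∈ ball (e x) (r / 4), dT v z = 0 := fun z hz => by
    rw [← (h2 z (ball_subset_ball (by linarith) hz)).2]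
    exact ka.congr (mem_of_superset (isOpen_ball.mem_nhds hz) hvb)
  obtain ⟨w, w1, -⟩ := loc k1b' e (e.symm '' closedBall (e x) (r / 2))
    (fun z => (χ z : ℂ) • Po1.cn v (e x) z) he.1
    ((isCompact_closedBall _ _).image_of_continuousOn (e.continuousOn_symm.mono hs))
    (by rintro _ ⟨z, hz, rfl⟩; exact e.map_target (hs hz)) (hχ.smul hc).contDiffOn
    fun z hz hz' => by
      rw [h0 z fun k => hz' ⟨_, ⟨z, k, rfl⟩, e.right_inv hz⟩, zero_smul]
  refine ⟨w, v (e x) ∅, ?_⟩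
  have h3 : ∀ᶠ y in 𝓝 x, y ∈ e.source ∧ e y ∈ ball (e x) (r / 4) :=
    Eventually.and (e.open_source.mem_nhds he.2)
      ((e.continuousAt he.2).eventually (ball_mem_nhds _ (by positivity)))
  filter_upwards [h3] with y hy
  have hy' : At e y := ⟨he.1, hy.1⟩
  refine zp _ hy' ?_
  have h4 : dT (vl w e) (e y) = dT (Po1.cn v (e x)) (e y) := ka.congr (by
    filter_upwards [isOpen_ball.mem_nhds hy.2] with z hz
    rw [w1 z (h2 z (ball_subset_ball (by linarith) hz)).1, hone z hz, one_smul])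
  have h5 : Po1.cn (dT v) (e x) (e y) = 0 := by
    rw [Po1.cn, intervalIntegral.integral_congr (g := fun _ => 0), intervalIntegral.integral_zero]
    intro s hs
    rw [uIcc_of_le zero_le_one] at hs
    rw [Po1.ig, hd0 _ ((convex_ball _ _).add_smul_sub_mem (mem_ball_self (by positivity)) hy.2 hs),
      Matrix.mulVec_zero, Matrix.mulVec_zero]
  have h6 := Po1.cn_hom ka hv (e x) (e y)
  rw [h5, add_zero] at h6
  rw [vl_add, vl_sub, vl_smul, dd_vl _ hy', one_vl e y hy', h4, h6, hvb _ hy.2]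
  abel

end Vale.Agent.P275AR
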