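import Vale.Agent.P275AR.Deg
import Vale.Agent.P275AR.Cp

/-!
# P275, arrangements: extension by zero along an open algebraic embedding is graded
-/

open scoped Manifold ContDiff Topology Matrix
open Filter Set Function Topology
open Vale.Agent.P272.K Vale.Agent.P281Z.Hg Vale.Agent.P275MC Vale.Agent.P275FM
open Vale.Agent.P281Z (HolM Mf Emb off)
open Vale.Agent.P275RG
open Vale.Agent.P280Z.Pu (smo_of)

set_option linter.unusedSectionVars false

noncomputable section

namespace Vale.Agent.P275AR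

section lc

variable {d : ℕ} {M : Type} [TopologicalSpace M] [ChartedSpace (Cm d) M] [T2Space M]
  [IsManifold 𝓘(ℂ, Cm d) ω M] {y : SF d M}

theorem ty0_of_Dg (h : y ∈ Dg d M 0) : ty d M 0 y = y := G2H.ext' fun e x he => funext fun I => by
  rw [ty_vl 0 y e x he, pm, Matrix.mulVec_diagonal]
  split_ifs with k
  · exact one_mul _
  · rw [h e _ I fun a => k ?_, mul_zero]
    rw [Finset.card_eq_zero.1 (Int.natCast_eq_zero.1 a)]
    rfl

/-- locally constant functions -/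
theorem dd_mu_one {ρ : M → ℝ} (hρ : SmoothFn (n := d) ρ)
    (h : ∀ x, (∀ᶠ y in 𝓝 x, ρ y = 1) ∨ ∀ᶠ y in 𝓝 x, ρ y = 0) : dd d M (mu hρ (one d M)) = 0 :=
  eq_zero_of_ZP fun x => Nb_ZP ((h x).elim (fun k => by
    have := dd_Nb (mu_Nb_one hρ k (one d M))
    rwa [map_sub, dd_one, sub_zero] at this) fun k => dd_Nb (mu_Nb_zero hρ k _))

end lc

variable {n m : ℕ} {U V : Type} [TopologicalSpace U] [ChartedSpace (Cm n) U] [T2Space U]
  [IsManifold 𝓘(ℂ, Cm n) ω U] [TopologicalSpace V] [ChartedSpace (Cm n) V] [T2Space V]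
  [IsManifold 𝓘(ℂ, Cm n) ω V] {c : Cp n U} {c' : Cp n V} {i : V → U} {S : Set U}

/-- closed functions on the compactification act by graded maps -/
theorem grd_fn {y : SF n c.Y.X} (hy : y ∈ Dg n c.Y.X 0) (h0 : dd _ _ y = 0)
    (h : Act univ univ (wd (pb (oe c).smo y))) : Grd (wt c) (wt c) 0 h.map :=
  grd_wd0 (s := 0) hy (del_of_ty (ty0_of_Dg hy) h0).1 (del_of_ty (ty0_of_Dg hy) h0).2 h

/-- the weights preserve the classes with support in a clopen part of the compactification -/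
theorem wt_clopen {C : Set c.Y.X} (hC : IsClopen C) {a : SF n U} (ha : a ∈ Ac n (c.j ⁻¹' C))
    (h0 : dd _ _ a = 0) (q : ℕ) : ∃ b, ∃ (hb : b ∈ Ac n (c.j ⁻¹' C)) (h1 : dd _ _ b = 0),
      wt c q (hc a (Ac_mono (subset_univ _) ha) h0) = hc b (Ac_mono (subset_univ _) hb) h1 := by
  obtain ⟨ρ, hρ, r1, r0⟩ := ex_cut (d := n) hC.1 hC.2.isClosed_compl disjoint_compl_right
  have k1 := dd_mu_one hρ fun x => (em' (x ∈ C)).symm.imp (r1 x) (r0 x)
  have k2 := mu_Dg hρ (one_Dg (d := n) (M := c.Y.X))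
  have k3 : ∀ u, wd (pb (oe c).smo (mu hρ (one _ _))) u = mu (smoothFn_comp (oe c).smo hρ) u :=
    fun u => by rw [pb_mu _ _ (smoothFn_comp (oe c).smo hρ), pb_one, wd_mu, one_wd]
  have h : Act univ univ (wd (pb (oe c).smo (mu hρ (one _ _)))) :=
    act_wd (by rw [← pb_dd, k1, map_zero]) (by rw [← pb_pr, pr_Dg k2]; simp)
  obtain ⟨b, hb, h1, e⟩ := hc_ind (wt c q (hc a (Ac_mono (subset_univ _) ha) h0))
  have k4 := (grd_fn k2 k1 h).comm (gr_wt c) (gr_wt c) (q := q) (q' := q) (by simp)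
    (hc a (Ac_mono (subset_univ _) ha) h0)
  rw [e, Act.map_hc, Act.map_hc, hc_congr ((k3 a).trans ?_)] at k4
  · refine ⟨_, ?_, _, k4⟩
    obtain ⟨K, l1, -, l3⟩ := hb
    refine ⟨K ∩ c.j ⁻¹' C, l1.inter_right (hC.1.preimage c.hol.cont), inter_subset_right,
      fun x hx => ?_⟩
    rw [k3]
    by_cases l4 : x ∈ K
    · exact mu_ZP _ _ (r0 _ fun l5 => hx ⟨l4, l5⟩).self_of_nhds
    · exact op_ZP (opr_vl _) (l3 x l4)
  · obtain ⟨K, -, l2, l3⟩ := ha
    exact mu_self _ l3 fun x hx => c.hol.cont.continuousAt.eventually (r1 _ (l2 hx))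

theorem emb_comp (hi : Emb n n i S) : Emb n n (fun x => c.j (i x)) (range fun x => c.j (i x)) :=
  ⟨c.hol.comp hi.hol, c.inj.comp hi.inj, fun x =>
    .comp (c.hol.at _) (hi.hol.at _) (c.emb.imm _) (hi.imm x), rfl⟩

variable {F : c'.Y.X → c.Y.X}

theorem mdf_ext (hi : Emb n n i S) (h : Ext c' c i F) : Mdf n F (fun x => c.j (i x)) c'.j where
  smo := smo_of h.hol
  prop _ hK := (hK.isClosed.preimage h.hol.cont).isCompact
  oi := oe_of_emb (emb_comp hi)
  oj := oe c'
  ri := ori_of_emb (emb_comp hi)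
  rj := ori_of_emb c'.emb
  eq := h.eq
  pre y := by
    rintro ⟨x, e⟩
    have := c'.neBot y
    have k := (emb_open hi).isInducing.tendsto_nhds_iff.2 (h.tend e.symm)
    exact ⟨x, tendsto_nhds_unique (c'.hol.cont.continuousAt.tendsto.comp k) tendsto_comap⟩

theorem range_eq (h : Ext c' c i F) : range F = closure (range fun x => c.j (i x)) := by
  rw [← image_univ, ← c'.dense.closure_range, ← h.hol.cont.isClosedMap.closure_image_eq_of_continuous
    h.hol.cont, ← range_comp]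
  exact congrArg _ (congrArg _ (funext h.eq))

theorem range_clopen (hi : Emb n n i S) (h : Ext c' c i F) : IsClopen (range F) := by
  have k := (P281Z.rem _ _ c'.Y _ F _ h.hol P281Z.an_univ).clopen
  rw [image_univ] at k
  have e : range F ⊆ interior (range F) := (range_eq h).subset.trans (closure_minimal
    (interior_maximal (subset_closure.trans (range_eq h).superset)
      (emb_open (emb_comp hi)).isOpen_range) k.1)
  rwa [Subset.antisymm interior_subset e] at k

theorem ext_ext (hi : Emb n n i S) {a : SF n V} (ha : a ∈ Ac n univ) :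
    (oe c).ext ((oe_of_emb hi).ext a) = (oe_of_emb (emb_comp (c := c) hi)).ext a := by
  have k := (oe_of_emb hi).ext_Ac ha
  obtain ⟨K, -, k2, k3⟩ := (oe c).ext_Ac k
  refine ((oe_of_emb (emb_comp hi)).ext_eq (Sp_mono (k2.trans ?_) k3) ?_).symm
  · rw [image_image, image_univ]
  · rw [pb_eq _ (Pb1H.smo_comp (oe_of_emb hi).smo (oe c).smo) fun _ => rfl,
      pb_comp (oe_of_emb hi).smo (oe c).smo, (oe c).pb_ext k, (oe_of_emb hi).pb_ext ha]

theorem grd_opn0 (pd : PD n U) (hi : Emb n n i S) (h : Ext c' c i F) :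
    Grd (wt c') (wt c) 0 (Act.ext (oe_of_emb hi) (subset_univ (i '' univ))).map := by
  classical
  let T : Finset (Fin c'.r) := Finset.univ.filter fun l => ∃ k, MapsTo F (c'.G l) (c.G k)
  let ι := (T.orderEmbOfFin rfl).toEmbedding
  let P := c'.toPr.sub ι
  choose φ hφ using fun p => (Finset.mem_filter.1 (T.orderEmbOfFin_mem rfl p)).2
  have m1 : Cmb c.G P.G F (mx φ) := cmb_mx hφ
  have m2 : Cmb c'.G P.G id (mx ι) := cmb_mx fun _ _ hx => hx
  have M1 := pul_mor (h := c.snc) (h' := P.snc) h.hol m1 (mx_one φ)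
  have M2 := pul_mor (h := c'.snc) (h' := P.snc) P281Z.holM_id m2 (mx_one ι)
  have g1 := (KC_ok c).grd_mor (KP_ok P) M1
  have g2 := (KC_ok c').grd_mor (KP_ok P) M2
  have md := mdf_ext hi h
  have o1 : off P.G ⊆ F ⁻¹' range c.j := fun y hy => by
    rw [c.emb.rng]
    intro k hk
    obtain ⟨l, l1, l2⟩ := h.comps hk
    obtain ⟨p, rfl⟩ : l ∈ range (T.orderEmbOfFin rfl) := by
      rw [Finset.range_orderEmbOfFin]
      exact Finset.mem_filter.2 ⟨Finset.mem_univ _, k, l2⟩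
    exact hy p l1
  intro q q' x hq
  obtain ⟨a, ha, a0, e⟩ := hc_ind (wt c' q x)
  have a1 : (oe_of_emb hi).ext a ∈ Ac n (c.j ⁻¹' range F) :=
    Ac_mono (by rintro _ ⟨x, -, rfl⟩; exact ⟨_, h.eq x⟩) ((oe_of_emb hi).ext_Ac ha)
  have a2 : dd _ _ ((oe_of_emb hi).ext a) = 0 := by rw [← (oe_of_emb hi).ext_dd ha, a0, map_zero]
  obtain ⟨b, hb, b0, e'⟩ := wt_clopen (range_clopen hi h) a1 a2 q'
  have e1 : Coh.map _ M1.ch (iso c (hc _ (Ac_mono (subset_univ _) a1) a2)) =
      Coh.map _ M2.ch (iso c' (hc a ha a0)) := by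
    refine Coh.mk_congr ?_ _
    refine (pul_ext0 (h := c.snc) (h' := P.snc) h.hol m1 ((oe c).ext ((oe_of_emb hi).ext a))).trans
      (.trans (congrArg _ ?_) (pul_ext0 (h := c'.snc) (h' := P.snc) P281Z.holM_id m2
        ((oe c').ext a)).symm)
    exact ((congrArg (pb md.smo) (ext_ext hi ha)).trans (md.pb_ext ha)).trans (pb_id _).symm
  have e2 := g1.comm (KC_ok c).gr_wt (KP_ok P).gr_wt (q := q') (q' := q') (by simp)
    (iso c (hc _ (Ac_mono (subset_univ _) a1) a2))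
  rw [e1, ← e, iso_wt, g2 q q' _ hq, ← iso_wt, e'] at e2
  obtain ⟨y, e3⟩ := Coh.mk_eq_zero.1 e2.symm
  have b1 := (m1.act h.hol (mx_one φ)).mem _ (ext_off (Ac_mono (subset_univ _) hb))
  have b2 : dd _ _ (pb md.smo ((oe c).ext b)) = 0 := by
    rw [← pb_dd, ← (oe c).ext_dd (Ac_mono (subset_univ _) hb), b0, map_zero, map_zero]
  obtain ⟨z, z1, z2⟩ := (inj_dom _).1 (bij_ext0 P.snc).1 _ b1 y b2
    ((pul_ext0 (h := c.snc) (h' := P.snc) h.hol m1 _).symm.trans e3)
  rw [e, Act.map_hc]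
  exact e'.trans (hc_zero.2 (md.inj (range_clopen hi h).2 (range_eq h).subset (oe c)
    (ori_of_emb c.emb) pd hb b0 (Ac_mono o1 z1) z2))

/-- **extension by zero along an open algebraic embedding is graded** -/
theorem grd_opn' (pd : PD n U) (hi : Emb n n i S) (h : Alg c' c i) :
    Grd (wt c') (wt c) 0 (Act.ext (oe_of_emb hi) (subset_univ (i '' univ))).map :=
  let ⟨_, _, _, h1, h2⟩ := h.ext
  wt_ext h1 ▸ grd_opn0 pd hi h2

end Vale.Agent.P275AR
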