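import Vale.Agent.P275AR.FineC
import Vale.Agent.P275AR.One
import Vale.Agent.P275AR.Hc

/-!
# P275, arrangements: the exact triangle of a closed submanifold
-/

open scoped Manifold ContDiff Topology
open Filter Set Function Topology
open Vale.Agent.P272.K Vale.Agent.P281Z.Hg Vale.Agent.P275MC Vale.Agent.P275FM

set_option linter.unusedSectionVars false

noncomputable section

namespace Vale.Agent.P275AR

variable {d d' : ℕ} {M Z : Type} [TopologicalSpace M] [ChartedSpace (Cm d) M] [T2Space M]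
  [IsManifold 𝓘(ℂ, Cm d) ω M] [TopologicalSpace Z] [ChartedSpace (Cm d') Z] [T2Space Z]
  [IsManifold 𝓘(ℂ, Cm d') ω Z] {i : Z → M} {W : Set M} {x : M} {a a' c : SF d M} {b e : SF d' Z}

theorem dd_one_Nb {α : ℂ} (h : dd d M a + α • one d M ∈ Nb x) : dd d M a ∈ Nb x ∧ α = 0 := by
  have k := gl_Nb (fun q => if q = 0 then 0 else 1) h
  rw [map_add, map_smul, gl_one, if_pos rfl, zero_smul, smul_zero, add_zero, gl_dd] at k
  simp only [Nat.succ_ne_zero, if_false, gl_const, one_smul] at k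
  exact ⟨k, one_Nb (by simpa using Submodule.sub_mem _ h k)⟩

theorem Sp_Nb {K : Set M} (hK : IsClosed K) (h : a ∈ Sp d K) (hx : x ∉ K) : a ∈ Nb x :=
  mem_of_superset (hK.isOpen_compl.mem_nhds hx) h

theorem lcs (d : ℕ) (M : Type) [TopologicalSpace M] [ChartedSpace (Cm d) M] :
    LocallyCompactSpace M := ChartedSpace.locallyCompactSpace (Cm d) M

/-- the class of a closed form with compact support -/
def hc (a : SF d M) (ha : a ∈ Ac d W) (h : dd d M a = 0) : Hc d W := Coh.mk ⟨a, ha⟩ (Subtype.ext h)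

theorem hc_ind (x : Hc d W) : ∃ a ha h, x = hc a ha h :=
  let ⟨z, hz, e⟩ := Coh.ind x
  ⟨z, z.2, congrArg Subtype.val hz, e⟩

theorem hc_eq {ha : a ∈ Ac d W} {ha' : a' ∈ Ac d W} {h h'} :
    hc a ha h = hc a' ha' h' ↔ ∃ c ∈ Ac d W, a - a' = dd d M c :=
  Coh.mk_eq.trans ⟨fun ⟨c, e⟩ => ⟨c, c.2, congrArg Subtype.val e⟩,
    fun ⟨c, k, e⟩ => ⟨⟨c, k⟩, Subtype.ext e⟩⟩

theorem hc_zero {ha : a ∈ Ac d W} {h} : hc a ha h = 0 ↔ ∃ c ∈ Ac d W, a = dd d M c :=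
  Coh.mk_eq_zero.trans ⟨fun ⟨c, e⟩ => ⟨c, c.2, congrArg Subtype.val e⟩,
    fun ⟨c, k, e⟩ => ⟨⟨c, k⟩, Subtype.ext e⟩⟩

theorem hc_congr (e : a = a') (ha : a ∈ Ac d W) (h) : hc a ha h = hc a' (e ▸ ha) (e ▸ h) := by
  subst e
  rfl

theorem Act.map_hc {V : Set Z} {T : SF d M →ₗ[ℂ] SF d' Z} (k : Act W V T) (ha : a ∈ Ac d W) (h) :
    k.map (hc a ha h) = hc (T a) (k.mem a ha) (by rw [k.comm a ha, h, map_zero]) := rfl

/-- the cone of the restriction -/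
def cone (hi : Smo d' d i) : Fine M (SF d M × SF d' Z) where
  d := (dd d M ∘ₗ .fst ℂ _ _).prod (pb hi ∘ₗ .fst ℂ _ _ - dd d' Z ∘ₗ .snd ℂ _ _)
  π m := (gl d M fun q => if q < m then 1 else 0).prodMap
    (gl d' Z fun q => if q + 1 < m then 1 else 0)
  G x := (Nb x).prod (⨅ z ∈ i ⁻¹' {x}, Nb z)
  R := {r | ∃ (ρ : M → ℝ) (hρ : SmoothFn (n := d) ρ),
    r = (mu hρ).prodMap (mu (smoothFn_comp hi hρ))}

variable {hi : Smo d' d i} {u : SF d M × SF d' Z}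

theorem cone_d (u : SF d M × SF d' Z) :
    (cone hi).d u = (dd d M u.1, pb hi u.1 - dd d' Z u.2) := rfl

theorem cone_G : u ∈ (cone hi).G x ↔ u.1 ∈ Nb x ∧ ∀ z, i z = x → u.2 ∈ Nb z := by
  simp only [cone, Submodule.mem_prod, Submodule.mem_iInf]
  rfl

theorem cone_Cs (he : IsClosedEmbedding i) :
    u ∈ (cone hi).Cs W ↔ u.1 ∈ Ac d W ∧ u.2 ∈ Ac d' (i ⁻¹' W) := by
  refine ⟨fun ⟨K, h1, h2, h3⟩ => ⟨⟨K, h1, h2, fun x hx => Nb_ZP (cone_G.1 (h3 x hx)).1⟩,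
    ⟨_, he.isCompact_preimage h1, preimage_mono h2, fun z hz =>
      Nb_ZP ((cone_G.1 (h3 _ hz)).2 z rfl)⟩⟩, fun ⟨⟨K, h1, h2, h3⟩, L, k1, k2, k3⟩ =>
    ⟨K ∪ i '' L, h1.union (k1.image he.continuous), union_subset h2 (image_subset_iff.2 k2),
      fun x hx => cone_G.2 ⟨Sp_Nb h1.isClosed h3 fun k => hx (Or.inl k), fun z hz =>
        Sp_Nb k1.isClosed k3 fun k => hx (Or.inr ⟨z, k, hz⟩)⟩⟩⟩

theorem cone_ok (hi : Smo d' d i) (he : IsClosedEmbedding i) : (cone hi).OKc where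
  dd u := Prod.ext (dd_dd _) (by
    change pb hi (dd _ _ u.1) - dd _ _ (pb hi u.1 - dd _ _ u.2) = 0
    rw [map_sub, dd_dd, pb_dd, sub_zero, sub_self])
  π0 u := Prod.ext
    ((gl_congr (c' := fun _ => 0) (fun _ _ => if_neg (Nat.not_lt_zero _)) _).trans
      ((gl_const _ _).trans (zero_smul _ _)))
    ((gl_congr (c' := fun _ => 0) (fun _ _ => if_neg (Nat.not_lt_zero _)) _).trans
      ((gl_const _ _).trans (zero_smul _ _)))
  πd m u := Prod.ext ((gl_dd _ _).trans (congrArg _ (gl_congr (fun _ _ => by simp) _))) (by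
    change gl _ _ _ (pb hi u.1 - dd _ _ u.2) = pb hi (gl _ _ _ u.1) - dd _ _ (gl _ _ _ u.2)
    rw [map_sub, gl_dd, pb_gl]
    simp only [Nat.add_lt_add_iff_right])
  ππ m u := Prod.ext ((gl_gl _ _ _).trans (gl_congr (fun _ _ => by split_ifs <;> simp) _))
    ((gl_gl _ _ _).trans (gl_congr (fun _ _ => by split_ifs <;> simp) _))
  top u := ⟨d + d + (d' + d') + 2, Prod.ext
    ((gl_congr (c' := fun _ => 1) (fun _ _ => if_pos (by omega)) _).trans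
      ((gl_const _ _).trans (one_smul _ _)))
    ((gl_congr (c' := fun _ => 1) (fun _ _ => if_pos (by omega)) _).trans
      ((gl_const _ _).trans (one_smul _ _)))⟩
  opn u x hx := by
    simp only [cone_G] at hx ⊢
    refine (Nb_ev hx.1).and (mem_of_superset ((he.isClosedMap _
      (isOpen_Nb u.2).isClosed_compl).isOpen_compl.mem_nhds ?_) fun y hy z e =>
        by_contra fun k => hy ⟨z, k, e⟩)
    rintro ⟨z, k, e⟩
    exact k (hx.2 z e)
  sep u hu := Prod.ext (eq_zero_of_ZP fun x => Nb_ZP (cone_G.1 (hu x)).1)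
    (eq_zero_of_ZP fun z => Nb_ZP ((cone_G.1 (hu _)).2 z rfl))
  dG x u hu := cone_G.2 ⟨dd_Nb (cone_G.1 hu).1, fun z e =>
    Submodule.sub_mem _ (pb_Nb hi (e ▸ (cone_G.1 hu).1)) (dd_Nb ((cone_G.1 hu).2 z e))⟩
  πG m x u hu := cone_G.2 ⟨gl_Nb _ (cone_G.1 hu).1, fun z e => gl_Nb _ ((cone_G.1 hu).2 z e)⟩
  RG := by
    rintro _ ⟨ρ, hρ, rfl⟩ x u hu
    exact cone_G.2 ⟨mu_Nb _ (cone_G.1 hu).1, fun z e => mu_Nb _ ((cone_G.1 hu).2 z e)⟩
  cut K U hK hU h := by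
    obtain ⟨χ, h1, h2, h3, -, -, h4⟩ := P275MC.ex_cut (d := d) hU hK h
    refine ⟨_, ⟨χ, h1, rfl⟩, fun u => ⟨fun x hx => cone_G.2 ⟨mu_Nb_one _ (h4 x hx) _, fun z e =>
      mu_Nb_one _ (he.continuous.continuousAt.eventually (h4 _ (e ▸ hx))) _⟩,
      _, h2, h3, fun x hx => ?_⟩⟩
    have k : ∀ᶠ y in 𝓝 x, χ y = 0 := notMem_tsupport_iff_eventuallyEq.1 hx
    exact cone_G.2 ⟨mu_Nb_zero _ k _, fun z e =>
      mu_Nb_zero _ (he.continuous.continuousAt.eventually (p := fun y => χ y = 0) (e ▸ k)) _⟩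

theorem cone_ex (h : Injective i) (hx : x ∈ range i) : (cone hi).Ex ⊤ x := fun u _ hd => by
  obtain ⟨z, rfl⟩ := hx
  obtain ⟨h1, h2⟩ := cone_G.1 hd
  obtain ⟨w, α, h3⟩ := poincare (u := u.1) h1
  have h4 := Submodule.add_mem _ (pb_Nb hi h3)
    (show pb hi u.1 - dd d' Z u.2 ∈ Nb z from h2 z rfl)
  rw [map_add, map_sub, map_smul, pb_one, pb_dd, show dd d' Z (pb hi w) - pb hi u.1 +
    α • one d' Z + (pb hi u.1 - dd d' Z u.2) = dd d' Z (pb hi w) - dd d' Z u.2 + α • one d' Z by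
      abel, ← map_sub] at h4
  obtain ⟨h5, rfl⟩ := dd_one_Nb h4
  obtain ⟨v, β, h6⟩ := poincare h5
  refine ⟨(w - β • one d M, v), trivial, cone_G.2 ⟨?_, fun z' e => ?_⟩⟩
  · change dd d M (w - β • one d M) - u.1 ∈ _
    rw [map_sub, map_smul, dd_one, smul_zero, sub_zero]
    simpa using h3
  · change pb hi (w - β • one d M) - dd d' Z v - u.2 ∈ _
    rw [h e, map_sub, map_smul, pb_one, show pb hi w - β • one d' Z - dd d' Z v - u.2 =
      -(dd d' Z v - (pb hi w - u.2) + β • one d' Z) by abel]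
    exact Submodule.neg_mem _ h6

theorem Ac_pre_diff (h : b ∈ Ac d' (i ⁻¹' (W \ range i))) : b = 0 := by
  rwa [preimage_sdiff, preimage_range, sdiff_univ, Ac_empty] at h

theorem pb_diff (hi : Smo d' d i) (h : a ∈ Ac d (W \ range i)) : pb hi a = 0 :=
  let ⟨_, _, h2, h3⟩ := h
  eq_zero_of_ZP fun z => pb_ZP hi (h3 _ fun k => (h2 k).2 ⟨z, rfl⟩)

variable (hi) (he : IsClosedEmbedding i) (hW : IsOpen W)
include he hW

/-- **cycles of the cone come from the complement** -/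
theorem pair_surj (ha : a ∈ Ac d W) (hb : b ∈ Ac d' (i ⁻¹' W)) (h1 : dd d M a = 0)
    (h2 : pb hi a = dd d' Z b) : ∃ a' ∈ Ac d (W \ range i), ∃ c ∈ Ac d W, ∃ e ∈ Ac d' (i ⁻¹' W),
      dd d M a' = 0 ∧ a = a' + dd d M c ∧ b = pb hi c - dd d' Z e := by
  have := lcs d M
  obtain ⟨p, k1, k2, q, k3, k4⟩ := (cone_ok hi he).qsurj Fine.sub_top hW he.isClosed_range
    (fun _ _ => cone_ex he.injective) (u := (a, b)) ⟨trivial, (cone_Cs he).2 ⟨ha, hb⟩⟩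
    (Prod.ext h1 (sub_eq_zero.2 h2))
  obtain ⟨k5, k6⟩ := (cone_Cs he).1 k1.2
  obtain ⟨k7, k8⟩ := (cone_Cs he).1 k3.2
  refine ⟨p.1, k5, q.1, k7, q.2, k8, congrArg Prod.fst k2, congrArg Prod.fst k4, ?_⟩
  have := congrArg Prod.snd k4
  rwa [Prod.snd_add, Ac_pre_diff k6, zero_add] at this

/-- **boundaries of the cone come from the complement** -/
theorem pair_inj (h₀ : c ∈ Ac d W) (hb : e ∈ Ac d' (i ⁻¹' W)) (h1 : dd d M c ∈ Ac d (W \ range i))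
    (h2 : pb hi c = dd d' Z e) : ∃ c' ∈ Ac d (W \ range i), dd d M c' = dd d M c := by
  have := lcs d M
  obtain ⟨p, k1, k2⟩ := (cone_ok hi he).qinj Fine.sub_top hW he.isClosed_range
    (fun _ _ => cone_ex he.injective) (u := (c, e)) ⟨trivial, (cone_Cs he).2 ⟨h₀, hb⟩⟩
    ((cone_Cs he).2 ⟨h1, by rw [cone_d, h2, sub_self]; exact Submodule.zero_mem _⟩)
  exact ⟨p.1, ((cone_Cs he).1 k1.2).1, congrArg Prod.fst k2⟩

/-- the kernel of the restriction: cycles -/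
theorem ker_surj (hs : ∀ w ∈ Ac d' (i ⁻¹' W), ∃ v ∈ Ac d W, pb hi v = w) (ha : a ∈ Ac d W)
    (h0 : pb hi a = 0) (h1 : dd d M a = 0) :
    ∃ a' ∈ Ac d (W \ range i), ∃ c ∈ Ac d W, pb hi c = 0 ∧ dd d M a' = 0 ∧ a = a' + dd d M c := by
  obtain ⟨a', k1, c, k2, e, k3, k4, k5, k6⟩ :=
    pair_surj hi he hW ha (Submodule.zero_mem _) h1 (h0.trans (map_zero _).symm)
  obtain ⟨v, k7, rfl⟩ := hs e k3
  exact ⟨a', k1, c - dd d M v, Submodule.sub_mem _ k2 (dd_Ac k7), by rw [map_sub, pb_dd, ← k6], k4,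
    by rw [map_sub, dd_dd, sub_zero, ← k5]⟩

/-- the kernel of the restriction: boundaries -/
theorem ker_inj (h₀ : c ∈ Ac d W) (h0 : pb hi c = 0) (h1 : dd d M c ∈ Ac d (W \ range i)) :
    ∃ c' ∈ Ac d (W \ range i), dd d M c' = dd d M c :=
  pair_inj hi he hW h₀ (Submodule.zero_mem _) h1 (h0.trans (map_zero _).symm)

theorem ex_bd : ∃ δ : Hc d' (i ⁻¹' W) →ₗ[ℂ] Hc d (W \ range i), ∀ b hb hb' a ha ha',
    ∀ c ∈ Ac d W, ∀ e ∈ Ac d' (i ⁻¹' W), a = dd d M c → b = pb hi c - dd d' Z e →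
      δ (hc b hb hb') = hc a ha ha' := by
  have hD : ∀ u ∈ (cone hi).Cs W, (cone hi).d u ∈ (cone hi).Cs W := ((cone_ok hi he).sub_Cs W).d
  have m1 : ∀ a ∈ Ac d (W \ range i), LinearMap.inl ℂ _ _ a ∈ (cone hi).Cs W := fun a ha =>
    (cone_Cs he).2 ⟨Ac_mono sdiff_subset ha, Submodule.zero_mem _⟩
  have m2 : ∀ b ∈ Ac d' (i ⁻¹' W), LinearMap.inr ℂ _ _ b ∈ (cone hi).Cs W := fun b hb =>
    (cone_Cs he).2 ⟨Submodule.zero_mem _, hb⟩
  have c1 : Ch (dc d (W \ range i)) ((cone hi).d.restrict hD) ((LinearMap.inl ℂ _ _).restrict m1) :=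
    ch_res fun a ha => Prod.ext rfl (by
      change pb hi a - dd d' Z 0 = 0
      rw [pb_diff hi ha, map_zero, sub_zero])
  have c2 : Ch (dc d' (i ⁻¹' W)) ((cone hi).d.restrict hD) ((LinearMap.inr ℂ _ _).restrict m2) :=
    Ch.of_anti fun b => Subtype.ext (Prod.ext ((map_zero (dd d M)).trans neg_zero.symm) (by
      change pb hi 0 - dd d' Z b = -dd d' Z b
      rw [map_zero, zero_sub]))
  have bij : Bijective (Coh.map _ c1) := by
    refine ⟨(inj_res _).2 fun a ha u hu _ k => ?_, (surj_res _).2 fun u hu k => ?_⟩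
    · obtain ⟨k1, k2⟩ := (cone_Cs he).1 hu
      have k3 : a = dd d M u.1 := congrArg Prod.fst k
      obtain ⟨c', k4, k5⟩ := pair_inj hi he hW k1 k2 (k3 ▸ ha)
        (sub_eq_zero.1 (congrArg Prod.snd k).symm)
      exact ⟨c', k4, k3.trans k5.symm⟩
    · obtain ⟨k1, k2⟩ := (cone_Cs he).1 hu
      obtain ⟨a', k3, c, k4, e, k5, k6, k7, k8⟩ := pair_surj hi he hW k1 k2 (congrArg Prod.fst k)
        (sub_eq_zero.1 (congrArg Prod.snd k))
      refine ⟨a', k3, -(c, e), Submodule.neg_mem _ ((cone_Cs he).2 ⟨k4, k5⟩), k6, ?_⟩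
      rw [map_neg]
      refine Prod.ext ?_ ?_
      · change a' - u.1 = -dd d M c
        rw [k7]
        abel
      · change 0 - u.2 = -(pb hi c - dd d' Z e)
        rw [k8, zero_sub]
  refine ⟨-((LinearEquiv.ofBijective _ bij).symm.toLinearMap ∘ₗ Coh.map _ c2),
    fun b hb hb' a ha ha' c k e h e1 e2 => ?_⟩
  rw [LinearMap.neg_apply, neg_eq_iff_eq_neg, LinearMap.comp_apply, LinearEquiv.coe_coe,
    LinearEquiv.symm_apply_eq, map_neg, eq_neg_iff_add_eq_zero]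
  refine (Coh.mk_add (c2.cyc ⟨b, hb⟩ (Subtype.ext hb')) (c1.cyc ⟨a, ha⟩ (Subtype.ext ha')) (by
    rw [map_add, c1.cyc ⟨a, ha⟩ (Subtype.ext ha'), c2.cyc ⟨b, hb⟩ (Subtype.ext hb'),
      add_zero])).symm.trans (Coh.mk_eq_zero.2 ?_)
  exact ⟨⟨(c, e), (cone_Cs he).2 ⟨k, h⟩⟩,
    Subtype.ext (Prod.ext ((zero_add _).trans e1) ((add_zero _).trans e2))⟩

/-- **the connecting map** -/
def bd : Hc d' (i ⁻¹' W) →ₗ[ℂ] Hc d (W \ range i) := (ex_bd hi he hW).choose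

theorem bd_spec {hb : b ∈ Ac d' (i ⁻¹' W)} {hb'} {ha : a ∈ Ac d (W \ range i)} {ha'}
    (h₁ : c ∈ Ac d W) (h₂ : e ∈ Ac d' (i ⁻¹' W)) (e1 : a = dd d M c)
    (e2 : b = pb hi c - dd d' Z e) : bd hi he hW (hc b hb hb') = hc a ha ha' :=
  (ex_bd hi he hW).choose_spec b hb hb' a ha ha' c h₁ e h₂ e1 e2

/-- every class has representatives as in the specification -/
theorem bd_rep (hb : b ∈ Ac d' (i ⁻¹' W)) (hb' : dd d' Z b = 0) : ∃ c ∈ Ac d W,
    ∃ e ∈ Ac d' (i ⁻¹' W), dd d M c ∈ Ac d (W \ range i) ∧ b = pb hi c - dd d' Z e := by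
  obtain ⟨a, k1, c, k2, e, k3, -, k5, k6⟩ := pair_surj hi he hW (Submodule.zero_mem _) hb
    (map_zero _) ((map_zero _).trans hb'.symm)
  exact ⟨c, k2, e, k3, neg_eq_of_add_eq_zero_right k5.symm ▸ Submodule.neg_mem _ k1, k6⟩

omit hW in
/-- the restriction -/
theorem act_res (W : Set M) : Act W (i ⁻¹' W) (pb hi) :=
  Act.pb hi (fun _ hK _ => he.isCompact_preimage hK) subset_rfl

/-- the connecting map on the restriction of a form which is closed near the submanifold -/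
theorem bd_pb (h₁ : c ∈ Ac d W) (h₂ : dd d M c ∈ Ac d (W \ range i)) :
    bd hi he hW (hc (pb hi c) ((act_res hi he W).mem c h₁) (by rw [← pb_dd, pb_diff hi h₂])) =
      hc (dd d M c) h₂ (dd_dd c) :=
  bd_spec hi he hW h₁ (Submodule.zero_mem _) rfl (by rw [map_zero, sub_zero])

/-- exactness at the ambient manifold -/
theorem ex_mid (x : Hc d W) : (act_res hi he W).map x = 0 ↔
    ∃ y, x = (Act.incl (sdiff_subset : W \ range i ⊆ W)).map y := by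
  obtain ⟨z, hz, h0, rfl⟩ := hc_ind x
  rw [Act.map_hc, hc_zero]
  refine ⟨fun ⟨b, hb, e⟩ => ?_, fun ⟨y, hy⟩ => ?_⟩
  · obtain ⟨a, k1, c, k2, -, -, k4, k5, -⟩ := pair_surj hi he hW hz hb h0 e
    exact ⟨hc a k1 k4, by rw [Act.map_hc, hc_eq]; exact ⟨c, k2, sub_eq_of_eq_add' k5⟩⟩
  · obtain ⟨a, ha, h1, rfl⟩ := hc_ind y
    rw [Act.map_hc, hc_eq] at hy
    obtain ⟨c, k1, k⟩ := hy
    refine ⟨pb hi c, (act_res hi he W).mem c k1, ?_⟩
    rw [← pb_dd, ← k, map_sub, LinearMap.id_apply, pb_diff hi ha, sub_zero]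

/-- exactness at the submanifold -/
theorem ex_quo (x : Hc d' (i ⁻¹' W)) : bd hi he hW x = 0 ↔ ∃ y, x = (act_res hi he W).map y := by
  obtain ⟨b, hb, h0, rfl⟩ := hc_ind x
  refine ⟨fun h => ?_, fun ⟨y, hy⟩ => ?_⟩
  · obtain ⟨c, k2, e, k3, k4, k5⟩ := bd_rep hi he hW hb h0
    rw [bd_spec hi he hW (ha := k4) (ha' := dd_dd c) k2 k3 rfl k5, hc_zero] at h
    obtain ⟨c', k6, h⟩ := h
    refine ⟨hc (c - c') (Submodule.sub_mem _ k2 (Ac_mono sdiff_subset k6))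
      (by rw [map_sub, h, sub_self]), ?_⟩
    rw [Act.map_hc, hc_eq]
    refine ⟨-e, Submodule.neg_mem _ k3, ?_⟩
    rw [k5, map_sub, pb_diff hi k6, map_neg]
    abel
  · obtain ⟨a, ha, h1, rfl⟩ := hc_ind y
    rw [hy]
    exact (bd_pb hi he hW ha (h1 ▸ Submodule.zero_mem _)).trans
      (hc_zero.2 ⟨0, Submodule.zero_mem _, h1.trans (map_zero _).symm⟩)

/-- exactness at the complement -/
theorem ex_sub (x : Hc d (W \ range i)) :
    (Act.incl (sdiff_subset : W \ range i ⊆ W)).map x = 0 ↔ ∃ y, x = bd hi he hW y := by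
  obtain ⟨a, ha, h0, rfl⟩ := hc_ind x
  refine ⟨fun h => ?_, fun ⟨y, hy⟩ => ?_⟩
  · rw [Act.map_hc, hc_zero] at h
    obtain ⟨c, k, rfl⟩ : ∃ c ∈ Ac d W, a = dd d M c := h
    exact ⟨_, (bd_pb hi he hW k ha).symm⟩
  · obtain ⟨b, hb, h1, rfl⟩ := hc_ind y
    obtain ⟨c, k2, e, k3, k4, k5⟩ := bd_rep hi he hW hb h1
    rw [hy, bd_spec hi he hW (ha := k4) (ha' := dd_dd c) k2 k3 rfl k5, Act.map_hc, hc_zero]
    exact ⟨c, k2, rfl⟩

/-- **naturality of the connecting map** -/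
theorem bd_nat {n n' : ℕ} {N Y : Type} [TopologicalSpace N] [ChartedSpace (Cm n) N] [T2Space N]
    [IsManifold 𝓘(ℂ, Cm n) ω N] [TopologicalSpace Y] [ChartedSpace (Cm n') Y] [T2Space Y]
    [IsManifold 𝓘(ℂ, Cm n') ω Y] {k : Y → N} {V : Set N} (hk : Smo n' n k)
    (ke : IsClosedEmbedding k) (hV : IsOpen V) {T : SF d M →ₗ[ℂ] SF n N}
    {S : SF d' Z →ₗ[ℂ] SF n' Y} (h : Act W V T) (h₀ : Act (W \ range i) (V \ range k) T)
    (h₁ : Act (i ⁻¹' W) (k ⁻¹' V) S) (e : ∀ c ∈ Ac d W, pb hk (T c) = S (pb hi c))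
    (x : Hc d' (i ⁻¹' W)) : bd hk ke hV (h₁.map x) = h₀.map (bd hi he hW x) := by
  obtain ⟨b, hb, h0, rfl⟩ := hc_ind x
  obtain ⟨c, k2, v, k3, k4, k5⟩ := bd_rep hi he hW hb h0
  rw [bd_spec hi he hW (ha := k4) (ha' := dd_dd c) k2 k3 rfl k5, Act.map_hc, Act.map_hc]
  exact bd_spec hk ke hV (h.mem c k2) (h₁.mem v k3) (h.comm c k2).symm
    (by rw [k5, map_sub, e c k2, h₁.comm v k3])

end Vale.Agent.P275AR
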