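import Vale.Agent.P275SM.Io
import Vale.Agent.P275FL.Tri
import Vale.Agent.P275MC.Pd

/-!
# P275, arrangements: functions of the total degree
-/

open scoped Manifold ContDiff Topology
open Filter Set Function
open Vale.Agent.P272.K Vale.Agent.P281Z.Hg Vale.Agent.P275MC Vale.Agent.P275FM
open Vale.Agent.P275RG
open Vale.Agent.P275SM (TT Al Xt tri pull io wdT str_of gl_of)
open Vale.Agent.P275FL (SM)

set_option linter.unusedSectionVars false

noncomputable section

namespace Vale.Agent.P275AR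

section forms

variable {d : ℕ} {M : Type} [TopologicalSpace M] [ChartedSpace (Cm d) M] [T2Space M]
  [IsManifold 𝓘(ℂ, Cm d) ω M] {V : Set M} {l : ℂ}

theorem gl_pj (e : ℕ → ℂ) (q : ℕ) (u : SF d M) : gl d M e (pj d M q u) = e q • pj d M q u := by
  rw [pj_eq', gl_gl, ← gl_const (e q), gl_gl]
  exact gl_congr (fun j _ => by split_ifs with h <;> simp [h]) _

theorem gl_Dg (e : ℕ → ℂ) {q : ℕ} {u : SF d M} (h : u ∈ Dg d M q) : gl d M e u = e q • u := by
  rw [← pj_eq h, gl_pj]

theorem gl_Ac (e : ℕ → ℂ) {u : SF d M} (h : u ∈ Ac d V) : gl d M e u ∈ Ac d V := op_Ac (opr_vl _) h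

theorem gl_wd (e : ℕ → ℂ) {s : ℕ} {y : SF d M} (hy : y ∈ Dg d M s) (u : SF d M) :
    gl d M e (wd y u) = wd y (gl d M (fun q => e (q + s)) u) :=
  gr_pj.map_ext (f := (gl d M e ∘ₗ wd y).toAddMonoidHom)
    (g := (wd y ∘ₗ gl d M fun q => e (q + s)).toAddMonoidHom) (fun q x => by
      change gl d M e (wd y (pj d M q x)) = wd y (gl d M _ (pj d M q x))
      rw [gl_pj, map_smul, ← pj_wd hy, gl_pj]) u

theorem pr_gl (e : ℕ → ℂ) (u : SF d M) : pr d M (gl d M e u) = gl d M e (pr d M u) :=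
  (gl_gl _ _ _).trans ((gl_congr (fun _ _ => mul_comm _ _) _).trans (gl_gl _ _ _).symm)

theorem dd_scl (hl : l ≠ 0) (u : SF d M) :
    dd d M (gl d M (l ^ ·) u) = l⁻¹ • gl d M (l ^ ·) (dd d M u) := by
  rw [gl_dd, ← map_smul, ← gl_const, gl_gl]
  exact congrArg _ (gl_congr (fun q _ => by rw [pow_succ', inv_mul_cancel_left₀ hl]) _)

theorem ch_scl (V : Set M) (hl : l ≠ 0) :
    Ch (dc d V) (dc d V) ((gl d M (l ^ ·)).restrict fun _ => gl_Ac _) :=
  Ch.of_smul (inv_ne_zero hl) fun a => Subtype.ext (dd_scl hl a.1)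

theorem scl_eq (hl : l ≠ 0) (x : Hc d V) : Coh.map _ (ch_scl V hl) x =
    ∑ k ∈ Finset.range (d + d + 1), l ^ k • prH d V (k : ℕ) x := by
  obtain ⟨z, hz, rfl⟩ := Coh.ind x
  have h : ∀ k : ℕ, dc d V (l ^ k • ⟨pj d M k z.1, pj_Ac _ z.2⟩) = 0 := fun k => by
    rw [map_smul]
    exact smul_eq_zero_of_right _ (Subtype.ext (dd_pj (congrArg Subtype.val hz) _))
  have e : (gl d M (l ^ ·)).restrict (fun _ => gl_Ac _) z =
      ∑ k ∈ Finset.range (d + d + 1), l ^ k • (⟨pj d M (k : ℕ) z.1, pj_Ac _ z.2⟩ : Ac d V) :=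
    Subtype.ext (by
      rw [Submodule.coe_sum, LinearMap.coe_restrict_apply]
      conv_lhs => rw [← pj_sum z.1, map_sum]
      exact Finset.sum_congr rfl fun k _ => gl_pj _ k _)
  rw [Coh.map_mk, Coh.mk_congr e, Coh.mk_sum _ h]
  exact Finset.sum_congr rfl fun k _ => Coh.mk_smul _ _ _

theorem prH_out {k : ℤ} (h : k < 0 ∨ (d + d : ℕ) < k) : prH d V k = 0 := LinearMap.ext fun x => by
  obtain ⟨z, hz, rfl⟩ := Coh.ind x
  rw [prH_mk]
  refine (Coh.mk_congr (z' := 0) (Subtype.ext ?_) _).trans (Coh.mk_zero _)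
  exact h.elim (fun h => (Dg_neg h).le (pj_mem _ _)) fun h => (Dg_big h).le (pj_mem _ _)

/-- **the degrees are compatible with the weights if the scalings are** -/
theorem grd_prH {w : ℕ → Module.End ℂ (Hc d V)}
    (h : ∀ (l : ℂ) (hl : l ≠ 0), Grd w w 0 (Coh.map _ (ch_scl V hl))) (k : ℤ) :
    Grd w w 0 (prH d V k) := fun q q' x hq => by
  by_cases e : k < 0 ∨ (d + d : ℕ) < k
  · rw [prH_out e, LinearMap.zero_apply, map_zero]
  obtain ⟨k, rfl⟩ := Int.eq_ofNat_of_zero_le (not_lt.1 fun a => e (Or.inl a))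
  refine (Module.forall_dual_apply_eq_zero_iff ℂ _).1 fun φ => ?_
  have := Polynomial.eq_zero_of_infinite_isRoot (∑ j ∈ Finset.range (d + d + 1),
    Polynomial.monomial j (φ (w q' (prH d V (j : ℕ) (w q x))))) ((finite_singleton 0).infinite_compl.mono
      fun l hl => by
        have := congrArg φ (h l hl q q' x hq)
        rw [scl_eq hl] at this
        simp only [map_sum, map_smul, map_zero, smul_eq_mul] at this
        simpa only [mem_ofPred_eq, Polynomial.IsRoot, Polynomial.eval_finsetSum,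
          Polynomial.eval_monomial, mul_comm] using this)
  have := congrArg (Polynomial.coeff · k) this
  simpa only [Polynomial.finsetSum_coeff, Polynomial.coeff_monomial, Finset.sum_ite_eq',
    Finset.mem_range, show k < d + d + 1 by omega, if_true, Polynomial.coeff_zero] using this

end forms

namespace Dia

variable {X : Dia} (e : ℕ → ℂ) (u : X.T)

theorem tg_A : X.gl (fun s q => e (X.col s + q)) (X.tri.A u) =
    X.tri.A (X.gl (fun s q => e (X.col s + q + 1)) u) := Fam.gl_del u _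

theorem tg_B : X.gl (fun s q => e (X.col s + q)) (X.tri.B u) =
    X.tri.B (X.gl (fun s q => e (X.col s + q + 1)) u) := by
  change X.gl _ (X.d u - X.del u) = X.d _ - X.del _
  rw [map_sub, Fam.gl_d, Fam.gl_del]
  rfl

theorem OK.tg_δ (h : X.OK) : X.gl (fun s q => e (X.col s + q)) (X.tri.δ u) =
    X.tri.δ (X.gl (fun s q => e (X.col s + q + 1)) u) :=
  (h.gl_δ (fun p q => e (p + q)) u).trans
    (congrArg _ (Fam.gl_congr u fun _ _ _ => by rw [Nat.add_right_comm]))

end Dia

variable {n n' : ℕ} {U U' : Type} [TopologicalSpace U] [ChartedSpace (Cm n) U] [T2Space U]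
  [IsManifold 𝓘(ℂ, Cm n) ω U] [TopologicalSpace U'] [ChartedSpace (Cm n') U'] [T2Space U']
  [IsManifold 𝓘(ℂ, Cm n') ω U'] {c : Cp n U} {c' : Cp n' U'} {Φ : Filter U} {Φ' : Filter U'}

/-- multiplication by a function of the total degree -/
def tg (h : Al c Φ) (e : ℕ → ℂ) : Module.End ℂ (TT h) := P275SM.gl h fun p q => e (p + q)

variable {h : Al c Φ} {h' : Al c' Φ'} (e e' : ℕ → ℂ) (t : TT h) {l : ℂ}

theorem tg_A : tg h e ((tri h).A t) = (tri h).A (tg h (fun q => e (q + 1)) t) := by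
  induction t using P275SM.ind with | k M u _ =>
  rw [(str_of h M).A, tg, tg, gl_of, gl_of, (str_of h M).A]
  exact congrArg _ (Dia.tg_A (X := M.K) e u)

theorem tg_B : tg h e ((tri h).B t) = (tri h).B (tg h (fun q => e (q + 1)) t) := by
  induction t using P275SM.ind with | k M u _ =>
  rw [(str_of h M).B, tg, tg, gl_of, gl_of, (str_of h M).B]
  exact congrArg _ (Dia.tg_B (X := M.K) e u)

theorem tg_δ : tg h e ((tri h).δ t) = (tri h).δ (tg h (fun q => e (q + 1)) t) := by
  induction t using P275SM.ind with | k M u _ =>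
  rw [(str_of h M).δ, tg, tg, gl_of, gl_of, (str_of h M).δ]
  exact congrArg _ ((P275SM.arr_ok M.cln).tg_δ e u)

theorem tg_D : tg h e ((tri h).D t) = (tri h).D (tg h (fun q => e (q + 1)) t) := by
  simp only [Tri.D, LinearMap.add_apply, map_add, tg_A, tg_B, tg_δ]

theorem gl_gl' (a a' : ℕ → ℕ → ℂ) : P275SM.gl h a (P275SM.gl h a' t) =
    P275SM.gl h (fun p q => a p q * a' p q) t := by
  induction t using P275SM.ind with | k M u _ =>
  rw [gl_of, gl_of, gl_of, Fam.gl_gl]

theorem tg_tg : tg h e (tg h e' t) = tg h (fun q => e q * e' q) t := gl_gl' t _ _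

theorem tg_const (a : ℂ) : tg h (fun _ => a) t = a • t := by
  induction t using P275SM.ind with | k M u _ =>
  rw [tg, gl_of, Fam.gl_const, map_smul]

theorem tg_smul (a : ℂ) : tg h (fun q => a * e q) t = a • tg h e t := by
  rw [← tg_tg, tg_const]

theorem tg_dg (q : ℕ) : (tri h).dg q (tg h e t) = tg h e ((tri h).dg q t) := by
  rw [P275SM.tri_dg, P275SM.tri_dg, tg, gl_gl', gl_gl']
  simp only [mul_comm]

theorem tg_io (a b : Ac n (univ : Set U)) (k : (b : SF n U) = gl n U e a) :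
    tg h e (io h a) = io h b :=
  P275SM.gl_io _ a b (k.trans (gl_congr (fun _ _ => by rw [zero_add]) _))

theorem pull_tg (f : U' → U) : tg h' e (pull h h' f t) = pull h h' f (tg h e t) :=
  P275SM.pull_gl _ f t

theorem tg_wdT {η : SF n U} (k : Xt c η) {s : ℕ} (h0 : η ∈ Dg n U s) :
    tg h e (wdT h η t) = wdT h η (tg h (fun q => e (q + s)) t) := by
  induction t using k.ind with | a M u y b p =>
  have hy : y ∈ Dg n M.Y.X s := mem_Dg_iff.2 (P275SM.pb_inj_dense M.oe b.dense (by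
    rw [pb_pj, p, pj_eq h0]))
  rw [P275SM.wdT_of p, tg, tg, gl_of, gl_of, P275SM.wdT_of p]
  refine congrArg _ (funext fun I => (gl_wd _ (pb_Dg _ hy) _).trans ?_)
  simp only [← add_assoc]
  rfl

/-- **the scalings are morphisms** -/
theorem sm_scl (h : Al c Φ) (hl : l ≠ 0) : SM l⁻¹ 0 (tri h) (tri h) (tg h (l ^ ·)) := by
  have k : ∀ t, tg h (l ^ ·) t = l⁻¹ • tg h (fun q => l ^ (q + 1)) t := fun t => by
    rw [← tg_smul]
    simp only [pow_succ', inv_mul_cancel_left₀ hl]
  exact ⟨fun t => by rw [tg_A, k, map_smul], fun t => by rw [tg_B, k, map_smul],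
    fun t => by rw [tg_δ, k, map_smul], fun q t => tg_dg _ t q⟩

/-- the parity of the total degree -/
theorem sm_par (h : Al c Φ) : SM (-1) 0 (tri h) (tri h) (tg h ((-1) ^ ·)) :=
  (sm_scl h (neg_ne_zero.2 one_ne_zero)).congr (by simp)

theorem par_par : tg h ((-1) ^ ·) (tg h ((-1) ^ ·) t) = t := by
  simp only [tg_tg, ← mul_pow, neg_mul_neg, mul_one, one_pow, tg_const, one_smul]

theorem par_io (a b : Ac n (univ : Set U)) (k : (b : SF n U) = pr n U a) :
    tg h ((-1) ^ ·) (io h a) = io h b := tg_io _ a b k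

/-- **the weights of a variety are compatible with the degree** -/
theorem grd_deg (c : Cp n U) (k : ℤ) : Grd (wt c) (wt c) 0 (prH n univ k) :=
  grd_prH (fun l hl => by
    have h := P275SM.al_co c
    have g := P275SM.grd_io h
    have o := P275SM.tri_ok h
    have m := (sm_scl h hl).mor (inv_ne_zero hl)
    refine Grd.of_inj (s := 0) (t := 0) (gr_wt c) o.gr_wt g ((P275SM.qs_io h).bij _).1 ?_
    have e : Coh.map (io h) (P275SM.qs_io h).ch ∘ₗ Coh.map _ (ch_scl univ hl) =
        Coh.map _ m.ch ∘ₗ Coh.map (io h) (P275SM.qs_io h).ch := LinearMap.ext fun x => by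
      obtain ⟨z, hz, rfl⟩ := Coh.ind x
      exact Coh.mk_congr (tg_io _ z _ rfl).symm _
    rw [e]
    exact (o.grd_mor o m).comp g o.gr_wt) k

end Vale.Agent.P275AR
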